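import Vale.Agent.P078.Sf.Outside

/-!
# From the tracial theorem to every MASA of a semifinite algebra
-/

open scoped ComplexOrder InnerProductSpace

noncomputable section

namespace Vale.Agent.P078.Sf

universe u

variable {H : Type u} [NormedAddCommGroup H] [InnerProductSpace ℂ H] [CompleteSpace H]

omit [CompleteSpace H] in
/-- The compression by an orthogonal sum, in blocks. -/
lemma compress_blocks {r : ℕ} (p p0 X : Fin r → Op H) (x a a0 a1 q0 g : Op H)
    (hpq0 : ∀ c, p c * q0 = p0 c * q0 ∧ q0 * p c = q0 * p0 c)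
    (hpg : ∀ c, p c * g = X c * g ∧ g * p c = g * X c) (haq0 : a * q0 = a0 * q0)
    (hag : a * g = a1 * g) (hga0 : g * a0 = 0) (hq0a1 : q0 * a1 * g = 0) :
    (q0 + g) * (∑ c, p c * x * p c - a) * (q0 + g) =
      q0 * (∑ c, p0 c * x * p0 c - a0) * q0 + g * (∑ c, X c * x * X c - a1) * g +
        (g * (∑ c, X c * x * p0 c) * q0 + q0 * (∑ c, p0 c * x * X c) * g) := by
  have e1 : (∑ c, p c * x * p c - a) * q0 = (∑ c, p c * x * p0 c - a0) * q0 := by
    simp only [sub_mul, haq0, Finset.sum_mul]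
    exact congrArg (· - a0 * q0) (Finset.sum_congr rfl fun c _ => by
      rw [mul_assoc, (hpq0 c).1, ← mul_assoc])
  have e2 : (∑ c, p c * x * p c - a) * g = (∑ c, p c * x * X c - a1) * g := by
    simp only [sub_mul, hag, Finset.sum_mul]
    exact congrArg (· - a1 * g) (Finset.sum_congr rfl fun c _ => by
      rw [mul_assoc, (hpg c).1, ← mul_assoc])
  have l0 : ∀ f : Fin r → Op H, q0 * ∑ c, p c * x * f c = q0 * ∑ c, p0 c * x * f c := fun f => by
    simp only [Finset.mul_sum, ← mul_assoc, (hpq0 _).2]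
  have l1 : ∀ f : Fin r → Op H, g * ∑ c, p c * x * f c = g * ∑ c, X c * x * f c := fun f => by
    simp only [Finset.mul_sum, ← mul_assoc, (hpg _).2]
  rw [mul_add, mul_assoc (q0 + g), mul_assoc (q0 + g), e1, e2]
  simp only [add_mul, ← mul_assoc, mul_sub, sub_mul, l0, l1, hga0, hq0a1, zero_mul]
  abel

/-- An operator in two orthogonal blocks. -/
lemma norm_add_blocks {e z a0 a1 : Op H} (hep : IsStarProjection e) (hzp : IsStarProjection z)
    (hez : e * z = 0) (hea : e * a0 = a0) (hae : a0 * e = a0) (hza : z * a1 = a1 * z) {b : ℝ}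
    (h0 : ‖a0‖ ≤ b) (h1 : ‖a1‖ ≤ b) : ‖a0 + z * a1‖ ≤ b := by
  have hb : 0 ≤ b := (norm_nonneg _).trans h0
  refine ContinuousLinearMap.opNorm_le_bound _ hb fun v => ?_
  refine (sq_le_sq₀ (norm_nonneg _) (by positivity)).1 ?_
  have horth : ∀ s t : Op H, ⟪(e * s) v, (z * t) v⟫_ℂ = 0 := fun s t => by
    rw [mul_apply_eq_comp, mul_apply_eq_comp, ← ContinuousLinearMap.adjoint_inner_right,
      ← ContinuousLinearMap.star_eq_adjoint, hep.isSelfAdjoint.star_eq, ← mul_apply_eq_comp e,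
      hez, zero_apply, inner_zero_right]
  have hn1 := norm_add_sq_eq_norm_sq_add_norm_sq_of_inner_eq_zero (𝕜 := ℂ) _ _ (horth a0 a1)
  have hn2 := norm_add_sq_eq_norm_sq_add_norm_sq_of_inner_eq_zero (𝕜 := ℂ) _ _ (horth 1 1)
  simp only [← sq, mul_one] at hn1 hn2
  rw [hea] at hn1
  have e0 : ‖a0 v‖ ≤ b * ‖e v‖ := by
    conv_lhs => rw [← hae]
    exact (a0.le_opNorm _).trans (mul_le_mul_of_nonneg_right h0 (norm_nonneg _))
  have e1 : ‖(z * a1) v‖ ≤ b * ‖z v‖ := by
    rw [hza]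
    exact (a1.le_opNorm _).trans (mul_le_mul_of_nonneg_right h1 (norm_nonneg _))
  have e2 : ‖e v + z v‖ ≤ ‖v‖ :=
    ((e + z).le_opNorm v).trans
      (mul_le_of_le_one_left (norm_nonneg _) (hep.add hzp hez).norm_le)
  rw [add_apply, hn1, mul_pow]
  nlinarith [pow_le_pow_left₀ (norm_nonneg _) e0 2, pow_le_pow_left₀ (norm_nonneg _) e1 2,
    mul_le_mul_of_nonneg_left (pow_le_pow_left₀ (norm_nonneg _) e2 2) (sq_nonneg b)]

/-- Three orthogonal blocks of partitions. -/
lemma blocks_partition {r : ℕ} [NeZero r] {e z d : Op H} {p0 X : Fin r → Op H} {A : StarSubalgebra ℂ (Op H)}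
    (hcomm : ∀ a ∈ A, ∀ b ∈ A, a * b = b * a) (_hep : IsStarProjection e) (hzp : IsStarProjection z)
    (hdp : IsStarProjection d) (heA : e ∈ A) (hzA : z ∈ A) (hdA : d ∈ A) (hez : e * z = 0)
    (hed : e * d = 0) (hdz : d * z = 0) (hsum : e + z + d = 1)
    (hp0 : ∀ c, p0 c ∈ A ∧ IsStarProjection (p0 c)) (ho0 : ∀ c d, c ≠ d → p0 c * p0 d = 0)
    (hs0 : ∑ c, p0 c = e) (hX : ∀ c, X c ∈ A ∧ IsStarProjection (X c))
    (hXo : ∀ c d, c ≠ d → X c * X d = 0) (hX1 : ∑ c, X c = 1) :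
    ∃ p : Fin r → Op H, (∀ c, p c ∈ A ∧ IsStarProjection (p c)) ∧
      (∀ c d, c ≠ d → p c * p d = 0) ∧ ∑ c, p c = 1 ∧
      (∀ w, e * w = w → ∀ c, p c * w = p0 c * w) ∧ ∀ w, z * w = w → ∀ c, p c * w = X c * w := by
  set D : Fin r → Op H := fun c => if c = 0 then d else 0 with hD
  have hDA : ∀ c, D c ∈ A := fun c => by simp only [hD]; split_ifs; exacts [hdA, zero_mem _]
  have hDp : ∀ c, IsStarProjection (D c) := fun c => by
    simp only [hD]; split_ifs; exacts [hdp, IsStarProjection.zero _]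
  have hDd : ∀ c, D c * d = D c := fun c => by
    simp only [hD]; split_ifs <;> simp [hdp.isIdempotentElem.eq]
  have hp0e : ∀ c, p0 c * e = p0 c := fun c => by
    rw [← hs0, Finset.mul_sum, Finset.sum_eq_single c (fun k _ hk => ho0 c k hk.symm) (by simp),
      (hp0 c).2.isIdempotentElem.eq]
  have hXz : ∀ c, z * X c = X c * z := fun c => hcomm _ hzA _ (hX c).1
  have cross : ∀ {u v : Op H}, u ∈ A → v ∈ A → u * v = 0 → ∀ {s t : Op H}, s * u = s → t ∈ A →
      t * v = t → s * t = 0 := by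
    intro u v hu hv huv s t hs htA ht
    rw [← hs, ← ht, hcomm t htA v hv, mul_assoc, ← mul_assoc u v, huv, zero_mul, mul_zero]
  have hzX : ∀ c, (z * X c) * z = z * X c := fun c => by
    rw [hXz, mul_assoc, hzp.isIdempotentElem.eq]
  have hze : z * e = 0 := by rw [hcomm _ hzA _ heA, hez]
  have hde : d * e = 0 := by rw [hcomm _ hdA _ heA, hed]
  have hzd : z * d = 0 := by rw [hcomm _ hzA _ hdA, hdz]
  have hzXA : ∀ c, z * X c ∈ A := fun c => mul_mem hzA (hX c).1
  refine ⟨fun c => p0 c + z * X c + D c,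
    fun c => ⟨add_mem (add_mem (hp0 c).1 (hzXA c)) (hDA c), ?_⟩, fun i j hij => ?_, ?_,
    fun w hw c => ?_, fun w hw c => ?_⟩
  · refine ((hp0 c).2.add (hzp.mul (hX c).2 (hXz c))
      (cross heA hzA hez (hp0e c) (hzXA c) (hzX c))).add (hDp c) ?_
    rw [add_mul, cross heA hdA hed (hp0e c) (hDA c) (hDd c),
      cross hzA hdA hzd (hzX c) (hDA c) (hDd c), add_zero]
  · have hDD : D i * D j = 0 := by
      simp only [hD]
      split_ifs with h1 h2
      · exact absurd (h1.trans h2.symm) hij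
      all_goals simp
    have hXX : z * X i * (z * X j) = 0 := by
      rw [mul_assoc, ← mul_assoc (X i), ← hXz, mul_assoc z (X i), hXo i j hij, mul_zero, mul_zero]
    simp only [add_mul, mul_add, ho0 i j hij, hDD, hXX,
      cross heA hzA hez (hp0e i) (hzXA j) (hzX j), cross heA hdA hed (hp0e i) (hDA j) (hDd j),
      cross hzA heA hze (hzX i) (hp0 j).1 (hp0e j), cross hzA hdA hzd (hzX i) (hDA j) (hDd j),
      cross hdA heA hde (hDd i) (hp0 j).1 (hp0e j), cross hdA hzA hdz (hDd i) (hzXA j) (hzX j),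
      add_zero]
  · simp only [Finset.sum_add_distrib, ← Finset.mul_sum, hs0, hX1, hD, Finset.sum_ite_eq',
      Finset.mem_univ, if_true, mul_one, hsum]
  · have h1 : z * w = 0 := by rw [← hw, ← mul_assoc, hze, zero_mul]
    have h2 : d * w = 0 := by rw [← hw, ← mul_assoc, hde, zero_mul]
    simp only [add_mul]
    rw [hXz, mul_assoc (X c), h1, mul_zero, ← hDd c, mul_assoc (D c), h2, mul_zero, add_zero,
      add_zero]
  · have h1 : e * w = 0 := by rw [← hw, ← mul_assoc, hez, zero_mul]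
    have h2 : d * w = 0 := by rw [← hw, ← mul_assoc, hdz, zero_mul]
    simp only [add_mul]
    rw [hXz, mul_assoc (X c) z, hw, ← hDd c, mul_assoc (D c), h2, ← hp0e c, mul_assoc (p0 c), h1,
      mul_zero, mul_zero, zero_add, add_zero]

variable (S : Semi H)

/-- Paving at one element. -/
theorem soPavable_of_tracial {C : ℝ}
    (hC : ∀ (H : Type u) [NormedAddCommGroup H] [InnerProductSpace ℂ H] [CompleteSpace H]
      (R : Tr.Tracial H) (x : Op H) (ε : ℝ), x ∈ R.M → IsSelfAdjoint x → 0 < ε → ε < 1 →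
      ∀ r : ℕ, C / ε ^ 2 ≤ r → Tr.SoPavable R x ε r)
    {x : Op H} (hx : x ∈ S.M) (hxs : IsSelfAdjoint x) {ε : ℝ} (hε : 0 < ε) (hε1 : ε < 1) {r : ℕ}
    (hr : max 144 (9 * C) / ε ^ 2 ≤ r) : SoPavable S x ε r := by
  classical
  have hε2 : 0 < ε ^ 2 := pow_pos hε 2
  rw [div_le_iff₀ hε2, max_le_iff] at hr
  obtain ⟨hr144, hrC⟩ := hr
  have hr0 : (0 : ℝ) < r := by nlinarith [Nat.cast_nonneg (α := ℝ) r]
  have : NeZero r := ⟨by rintro rfl; simp at hr0⟩
  intro F δ hδ
  by_cases hx0 : x = 0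
  · subst hx0
    refine ⟨fun c => if c = 0 then 1 else 0, 0, 1,
      fun c => ⟨by dsimp only; split_ifs <;> simp [one_mem, zero_mem],
        by dsimp only; split_ifs <;> simp [IsStarProjection.one, IsStarProjection.zero]⟩,
      fun i j h => ?_, by simp, zero_mem _, IsSelfAdjoint.zero _, by simp, one_mem _,
      IsStarProjection.one _, fun v _ => by simpa using hδ, by simp⟩
    by_cases hi : i = 0
    · subst hi; simp [Ne.symm h]
    · simp [hi]
  obtain ⟨e, heA, hep, hef, hze, hesmall⟩ := S.exists_finProj F (by linarith : (0 : ℝ) < δ / 3)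
  obtain ⟨p0, a0, q0, hp0, ho0, hs0, ha0A, ha0s, ha0n, hea0, hq0M, hq0p, heq0, hq0e, hq0F, hq0b⟩ :=
    S.exists_corner_paving hC heA hep hef hx hxs (div_pos hε three_pos) (by linarith : ε / 3 < 1)
      (by rw [div_le_iff₀ (by positivity)]; nlinarith : C / (ε / 3) ^ 2 ≤ r) F
      (by linarith : (0 : ℝ) < δ / 3)
  obtain ⟨X, a1, g, hX, hXo, hX1, ha1A, ha1s, ha1n, hgM, hgp, hzg0, hgF, h11, hB0⟩ :=
    exists_outside_colours S hx hxs hx0 hε hε1 hr144 hp0 ho0 hs0 hep F
      (by linarith : (0 : ℝ) < δ / 3)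
  -- the three parts of the unit
  set z1 := 1 - S.z0 with hz1
  set d := S.z0 - e with hd
  have hz1p : IsStarProjection z1 := S.isStarProjection_z0.one_sub
  have hz1A : z1 ∈ S.A := sub_mem (one_mem _) S.z0_mem_A
  have hez : e * S.z0 = e := by rw [S.comm _ heA _ S.z0_mem_A, hze]
  have hdA : d ∈ S.A := sub_mem S.z0_mem_A heA
  have hdp : IsStarProjection d := by
    refine ⟨?_, S.isStarProjection_z0.isSelfAdjoint.sub hep.isSelfAdjoint⟩
    show (S.z0 - e) * (S.z0 - e) = S.z0 - e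
    rw [sub_mul, mul_sub, mul_sub, S.isStarProjection_z0.isIdempotentElem.eq, hze, hez,
      hep.isIdempotentElem.eq]
    abel
  have hez1 : e * z1 = 0 := by rw [mul_sub, mul_one, hez, sub_self]
  have hed : e * d = 0 := by rw [mul_sub, hez, hep.isIdempotentElem.eq, sub_self]
  have hdz1 : d * z1 = 0 := by
    rw [mul_sub, mul_one, sub_mul, S.isStarProjection_z0.isIdempotentElem.eq, hez, sub_self]
  have hz1e : z1 * e = 0 := by rw [S.comm _ hz1A _ heA, hez1]
  have hzg : z1 * g = g := by rw [sub_mul, one_mul, hzg0, sub_zero]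
  have heg : e * g = 0 := by rw [← hzg, ← mul_assoc, hez1, zero_mul]
  have hz1q0 : z1 * q0 = 0 := by rw [← heq0, ← mul_assoc, hz1e, zero_mul]
  obtain ⟨p, hp, hpo, hp1, hpe, hpz⟩ := blocks_partition S.comm hep hz1p hdp heA hz1A hdA hez1 hed
    hdz1 (by simp only [hz1, hd]; abel) hp0 ho0 hs0 hX hXo hX1
  have flip : ∀ {u v w : Op H}, star u = u → star v = v → star w = w → u * w = v * w →
      w * u = w * v := fun {u v w} hu hv hw h => by
    have := congrArg star h
    rwa [star_mul, star_mul, hu, hv, hw] at this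
  have hpq0 : ∀ c, p c * q0 = p0 c * q0 ∧ q0 * p c = q0 * p0 c := fun c =>
    ⟨hpe q0 heq0 c, flip (hp c).2.isSelfAdjoint.star_eq (hp0 c).2.isSelfAdjoint.star_eq
      hq0p.isSelfAdjoint.star_eq (hpe q0 heq0 c)⟩
  have hpg : ∀ c, p c * g = X c * g ∧ g * p c = g * X c := fun c =>
    ⟨hpz g hzg c, flip (hp c).2.isSelfAdjoint.star_eq (hX c).2.isSelfAdjoint.star_eq
      hgp.isSelfAdjoint.star_eq (hpz g hzg c)⟩
  have ha0e : a0 * e = a0 := by rw [S.comm _ ha0A _ heA, hea0]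
  have hza : z1 * a1 = a1 * z1 := S.comm _ hz1A _ ha1A
  have haq0 : (a0 + z1 * a1) * q0 = a0 * q0 := by
    rw [add_mul, hza, mul_assoc, hz1q0, mul_zero, add_zero]
  have hag : (a0 + z1 * a1) * g = a1 * g := by
    rw [add_mul, hza, mul_assoc, hzg, ← ha0e, mul_assoc, heg, mul_zero, zero_add]
  have hq0g : q0 * g = 0 := by rw [← hq0e, mul_assoc, heg, mul_zero]
  have hga0 : g * a0 = 0 := by
    rw [← hea0, ← mul_assoc, ← hgp.isSelfAdjoint.star_eq, ← hep.isSelfAdjoint.star_eq, ← star_mul,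
      heg, star_zero, zero_mul]
  have hq0a1 : q0 * a1 * g = 0 := by
    rw [← hq0e, mul_assoc q0, S.comm _ heA _ ha1A, mul_assoc, mul_assoc, heg, mul_zero, mul_zero]
  have hBs : q0 * (∑ c, p0 c * x * X c) * g = star (g * (∑ c, X c * x * p0 c) * q0) := by
    simp only [star_mul, star_sum, hgp.isSelfAdjoint.star_eq, hq0p.isSelfAdjoint.star_eq,
      hxs.star_eq, (hX _).2.isSelfAdjoint.star_eq, (hp0 _).2.isSelfAdjoint.star_eq, mul_assoc]
  refine ⟨p, a0 + z1 * a1, q0 + g, hp, hpo, hp1, add_mem ha0A (mul_mem hz1A ha1A), ?_,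
    norm_add_blocks hep hz1p hez1 hea0 ha0e hza ha0n ha1n, add_mem hq0M hgM,
    hq0p.add hgp hq0g, fun v hv => ?_, ?_⟩
  · rw [IsSelfAdjoint, star_add, star_mul, ha0s.star_eq, ha1s.star_eq, hz1p.isSelfAdjoint.star_eq,
      hza]
  · have e1 : (1 - (q0 + g)) v = d v + (e - q0) v + (z1 - g) v := by
      simp only [hd, hz1, sub_apply, add_apply]
      abel
    rw [e1]
    linarith [norm_add₃_le (a := d v) (b := (e - q0) v) (c := (z1 - g) v), hesmall v hv, hq0F v hv,
      hgF v hv]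
  · rw [compress_blocks p p0 X x (a0 + z1 * a1) a0 a1 q0 g hpq0 hpg haq0 hag hga0 hq0a1, hBs]
    have hB : ‖g * (∑ c, X c * x * p0 c) * q0‖ ≤ ε * ‖x‖ / 8 :=
      ((norm_mul_le _ _).trans (mul_le_of_le_one_right (norm_nonneg _) hq0p.norm_le)).trans hB0
    calc _ ≤ ε / 3 * ‖x‖ + ε * ‖x‖ / 36 + (ε * ‖x‖ / 8 + ε * ‖x‖ / 8) :=
          (norm_add_le _ _).trans (add_le_add ((norm_add_le _ _).trans (add_le_add hq0b h11))
            ((norm_add_le _ _).trans (add_le_add hB ((norm_star _).trans_le hB))))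
      _ ≤ ε * ‖x‖ := by nlinarith [mul_nonneg hε.le (norm_nonneg x)]

/-- Semifinite paving from tracial paving. -/
theorem semifinite_of_tracial (h : Tr.TracialPavingStatement.{u}) :
    SemifinitePavingStatement.{u} := by
  obtain ⟨C, hC⟩ := h
  exact ⟨max 144 (9 * C), fun H _ _ _ S x ε hx hxs hε hε1 r hr =>
    soPavable_of_tracial S hC hx hxs hε hε1 hr⟩

end Vale.Agent.P078.Sf
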