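import Vale.Agent.P078.Sf.Assembly
import Vale.Agent.P078.Semi.Fin

/-!
# Semifinite algebras in the standard form

A faithful normal trace in which every nonzero projection of `M` majorises a nonzero projection of
finite trace satisfies the hypotheses used in `Sf`.
-/

open scoped ComplexOrder InnerProductSpace ENNReal

noncomputable section

namespace Vale.Agent.P078.Sf

universe u

variable {H : Type u} [NormedAddCommGroup H] [InnerProductSpace ℂ H] [CompleteSpace H]

omit [InnerProductSpace ℂ H] [CompleteSpace H] in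
lemma summable_iff_tsum_ne_top {I : Type*} (f : I → H) :
    Summable (fun i => ‖f i‖ ^ 2) ↔ ∑' i, ‖f i‖ₑ ^ 2 ≠ ⊤ := by
  simp only [enorm_eq_nnnorm, ← ENNReal.coe_pow, ENNReal.tsum_coe_ne_top_iff_summable]
  rw [← NNReal.summable_coe]
  simp

/-- The data used in `Sf`. -/
def toSemi (S : Semi.Semifinite H) : Semi H where
  M := S.M
  A := S.A
  le := S.le
  comm := S.comm
  masa := S.masa
  I := S.ι
  vec := S.vec
  separating := S.separating
  trace x hx hs := by
    have h := S.trace x hx
    have hs' : Summable fun i => ‖(star x) (S.vec i)‖ ^ 2 := by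
      rw [summable_iff_tsum_ne_top] at hs ⊢
      rwa [← h]
    convert hs'.hasSum using 1
    simp only [← ofReal_norm, ← ENNReal.ofReal_pow (norm_nonneg _)] at h
    rwa [← ENNReal.ofReal_tsum_of_nonneg (fun _ => sq_nonneg _) hs,
      ← ENNReal.ofReal_tsum_of_nonneg (fun _ => sq_nonneg _) hs',
      ENNReal.ofReal_eq_ofReal_iff (tsum_nonneg fun _ => sq_nonneg _)
        (tsum_nonneg fun _ => sq_nonneg _)] at h
  semifinite F δ hδ := by
    obtain ⟨q, hqM, hqp, -, hqs, hq⟩ := S.exists_fin_M (one_mem _) (IsStarProjection.one _) F hδ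
    exact ⟨q, hqM, hqp, (summable_iff_tsum_ne_top _).2 hqs, hq⟩

/-- Every MASA of every semifinite algebra, from the tracial theorem. -/
theorem standard_semifinite_of_tracial (h : Tr.TracialPavingStatement.{u}) :
    Semi.SemifinitePavingStatement.{u} := by
  obtain ⟨C, hC⟩ := semifinite_of_tracial h
  exact ⟨C, fun H _ _ _ S x ε hx hxs hε hε1 r hr => hC H (toSemi S) x ε hx hxs hε hε1 r hr⟩

end Vale.Agent.P078.Sf
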