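import Vale.Agent.P078.Sf.L2
import Vale.Agent.P078.Tr.Basics.Expect

/-!
# Membership in `M` and `A`; strong smallness from a small 2-norm
-/

open scoped ComplexOrder InnerProductSpace
open Vale.Agent.P078.Tr (cut rangeProj hinge)

noncomputable section

namespace Vale.Agent.P078.Sf

universe u

variable {H : Type u} [NormedAddCommGroup H] [InnerProductSpace ℂ H] [CompleteSpace H]

namespace Semi

variable (S : Semi H)

lemma mem_M_iff {x : Op H} : x ∈ S.M ↔ ∀ y ∈ S.M.commutant, y * x = x * y := by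
  conv_lhs => rw [← VonNeumannAlgebra.commutant_commutant S.M]
  exact VonNeumannAlgebra.mem_commutant_iff

lemma commute_of_mem {x y : Op H} (hx : x ∈ S.M) (hy : y ∈ S.M.commutant) : Commute y x :=
  (S.mem_M_iff.1 hx) y hy

lemma rangeProj_mem_M {g : Op H} (hg : g ∈ S.M) (hs : IsSelfAdjoint g) : rangeProj g ∈ S.M :=
  S.mem_M_iff.2 fun _ hy => (Tr.commute_rangeProj hs (S.commute_of_mem hg hy)).eq

lemma cut_mem_M {h : Op H} (hh : h ∈ S.M) (t : ℝ) : cut h t ∈ S.M :=
  S.rangeProj_mem_M (S.mem_M_iff.2 fun _ hy => ((S.commute_of_mem hh hy).symm.cfc_real _).symm.eq)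
    (Tr.hinge_isSelfAdjoint h t)

lemma cut_mem_A {h : Op H} (hh : h ∈ S.A) (t : ℝ) : cut h t ∈ S.A :=
  S.masa _ (S.cut_mem_M (S.le h hh) t) fun a ha =>
    (Tr.commute_cut t (S.comm h hh a ha : Commute h a)).symm.eq

/-- What commutes with the projections of `A` lies in `A` when it lies in `M`. -/
lemma mem_A_of_commute_proj {a : Op H} (ha : a ∈ S.M)
    (hc : ∀ e ∈ S.A, IsStarProjection e → Commute e a) : a ∈ S.A := by
  have hsa : ∀ h ∈ S.A, IsSelfAdjoint h → Commute a h := fun h hh hs =>
    Tr.commute_of_cuts hs fun t =>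
      (hc _ (S.cut_mem_A hh t) (Tr.isStarProjection_cut h t)).symm
  refine S.masa a ha fun b hb => ?_
  have h1 : Commute a (b + star b) :=
    hsa _ (add_mem hb (star_mem hb)) (IsSelfAdjoint.add_star_self b)
  have h2 : Commute a (Complex.I • (b - star b)) :=
    hsa _ (S.A.smul_mem (sub_mem hb (star_mem hb)) _) (by
      rw [IsSelfAdjoint, star_smul, star_sub, star_star, Complex.star_def, Complex.conj_I]
      module)
  have e : b = (2 : ℂ)⁻¹ • ((b + star b) + (-Complex.I) • (Complex.I • (b - star b))) := by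
    rw [smul_smul, neg_mul, Complex.I_mul_I, neg_neg, one_smul]
    module
  rw [e]
  exact ((h1.add_right (h2.smul_right _)).smul_right _).eq

/-- The vectors of the trace under the commutant span a dense subspace. -/
lemma exists_orbit (v : H) {δ : ℝ} (hδ : 0 < δ) :
    ∃ w ∈ Submodule.span ℂ {z | ∃ y ∈ S.M.commutant, ∃ i, y (S.vec i) = z}, dist v w < δ := by
  set O := Submodule.span ℂ {z | ∃ y ∈ S.M.commutant, ∃ i, y (S.vec i) = z}
  set P := O.topologicalClosure.starProjection
  have hinv : ∀ y ∈ S.M.commutant, P * y * P = y * P := fun y hy =>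
    ContinuousLinearMap.ext fun v => Submodule.starProjection_eq_self_iff.2 (by
      have h : O ≤ O.topologicalClosure.comap (y : H →ₗ[ℂ] H) := by
        refine Submodule.span_le.2 ?_
        rintro _ ⟨z, hz, i, rfl⟩
        exact O.le_topologicalClosure (Submodule.subset_span ⟨y * z, mul_mem hy hz, i, rfl⟩)
      exact Submodule.topologicalClosure_minimal _ h
        (IsClosed.preimage y.continuous O.isClosed_topologicalClosure)
        (Submodule.starProjection_apply_mem _ v))
  have hP : star P = P :=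
    (isStarProjection_starProjection (U := O.topologicalClosure)).isSelfAdjoint.star_eq
  have hmem : P ∈ S.M := S.mem_M_iff.2 fun y hy => by
    have h := congrArg star (hinv _ (star_mem hy))
    rw [star_mul, star_mul, star_mul, star_star, hP, ← mul_assoc] at h
    exact (hinv y hy).symm.trans h
  have h0 : (1 - P : Op H) = 0 := S.separating _ (sub_mem (one_mem _) hmem) fun i => by
    have hm : S.vec i ∈ O := Submodule.subset_span ⟨1, one_mem _, i, rfl⟩
    show S.vec i - P (S.vec i) = 0
    rw [Submodule.starProjection_eq_self_iff.2 (O.le_topologicalClosure hm), sub_self]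
  have hv : v ∈ closure (O : Set H) := by
    rw [← Submodule.topologicalClosure_coe]
    exact Submodule.starProjection_eq_self_iff.1 (DFunLike.congr_fun (sub_eq_zero.1 h0).symm v)
  exact Metric.mem_closure_iff.1 hv δ hδ

/-- A contraction of small 2-norm is small at a given vector. -/
lemma exists_small (v : H) {δ : ℝ} (hδ : 0 < δ) :
    ∃ η > (0 : ℝ), ∀ c ∈ S.fin, ‖c‖ ≤ 1 → ‖S.vc c‖ ≤ η → ‖c v‖ < δ := by
  obtain ⟨w, hw, hvw⟩ := S.exists_orbit v (half_pos hδ)
  have key : ∃ C : ℝ, 0 ≤ C ∧ ∀ c ∈ S.fin, ‖c w‖ ≤ C * ‖S.vc c‖ := by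
    clear hvw
    induction hw using Submodule.span_induction with
    | mem z hz =>
      obtain ⟨y, hy, i, rfl⟩ := hz
      refine ⟨‖y‖, norm_nonneg _, fun c hc => ?_⟩
      rw [show c (y (S.vec i)) = y (c (S.vec i)) from
        (DFunLike.congr_fun (S.commute_of_mem hc.1 hy).eq (S.vec i)).symm]
      refine (y.le_opNorm _).trans (mul_le_mul_of_nonneg_left ?_ (norm_nonneg _))
      rw [← vc_apply hc]
      exact lp.norm_apply_le_norm (by norm_num) _ _
    | zero => exact ⟨0, le_rfl, by simp⟩
    | add a b _ _ ha hb =>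
      obtain ⟨C, hC, ha⟩ := ha
      obtain ⟨D, hD, hb⟩ := hb
      refine ⟨C + D, add_nonneg hC hD, fun c hc => ?_⟩
      rw [map_add, add_mul]
      exact (norm_add_le _ _).trans (add_le_add (ha c hc) (hb c hc))
    | smul t a _ ha =>
      obtain ⟨C, hC, ha⟩ := ha
      refine ⟨‖t‖ * C, by positivity, fun c hc => ?_⟩
      rw [map_smul, norm_smul, mul_assoc]
      exact mul_le_mul_of_nonneg_left (ha c hc) (norm_nonneg _)
  obtain ⟨C, hC, key⟩ := key
  refine ⟨δ / (2 * (C + 1)), by positivity, fun c hc h1 h2 => ?_⟩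
  have e1 : ‖c (v - w)‖ < δ / 2 := by
    refine ((c.le_opNorm _).trans (mul_le_of_le_one_left (norm_nonneg _) h1)).trans_lt ?_
    rwa [← dist_eq_norm]
  have e2 : ‖c w‖ ≤ δ / 2 := by
    refine (key c hc).trans ((mul_le_mul_of_nonneg_left h2 hC).trans ?_)
    rw [mul_div_assoc', div_le_div_iff₀ (by positivity) two_pos]
    nlinarith
  calc ‖c v‖ = ‖c (v - w) + c w‖ := by rw [map_sub, sub_add_cancel]
    _ < δ := by linarith [norm_add_le (c (v - w)) (c w)]

end Semi

end Vale.Agent.P078.Sf
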