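import Mathlib

/-!
# Second moments of independent centred vectors
-/

open scoped InnerProductSpace

noncomputable section

namespace Vale.Agent.P078.Sf

variable {ι Ω : Type*} [Fintype ι] [DecidableEq ι] [Fintype Ω]

lemma card_nsmul_sum {M : Type*} [AddCommMonoid M] (f : (ι → Ω) → M) (K : ι) :
    Fintype.card Ω • ∑ ξ, f ξ = ∑ ξ, ∑ a, f (Function.update ξ K a) := by
  have hinv : Function.Involutive fun p : (ι → Ω) × Ω => (Function.update p.1 K p.2, p.1 K) :=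
    fun p => by simp
  calc Fintype.card Ω • ∑ ξ, f ξ = ∑ p : (ι → Ω) × Ω, f p.1 := by
        rw [Fintype.sum_prod_type, Finset.smul_sum]
        simp
    _ = ∑ p : (ι → Ω) × Ω, f (Function.update p.1 K p.2) :=
        (Equiv.sum_comp (hinv.toPerm _) fun p : (ι → Ω) × Ω => f p.1).symm
    _ = _ := Fintype.sum_prod_type _

lemma card_nsmul_sum_eval {M : Type*} [AddCommMonoid M] (f : Ω → M) (K : ι) :
    Fintype.card Ω • ∑ ξ : ι → Ω, f (ξ K) = Fintype.card (ι → Ω) • ∑ a, f a := by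
  rw [card_nsmul_sum _ K]
  simp

lemma card_nsmul_sum_eval₂ {M : Type*} [AddCommMonoid M] (f : Ω → Ω → M) {K L : ι} (h : K ≠ L) :
    Fintype.card Ω • (Fintype.card Ω • ∑ ξ : ι → Ω, f (ξ K) (ξ L)) =
      Fintype.card (ι → Ω) • ∑ a, ∑ b, f a b := by
  rw [card_nsmul_sum _ K]
  simp only [Function.update_self, Function.update_of_ne h.symm]
  rw [Finset.sum_comm, Finset.smul_sum, Finset.smul_sum]
  exact Finset.sum_congr rfl fun a _ => card_nsmul_sum_eval (f a) L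

variable [Nonempty Ω] {E : Type*} [NormedAddCommGroup E] [InnerProductSpace ℂ E]

lemma sum_inner_eq_zero {K : ι} (f : Ω → (ι → Ω) → E) (g : (ι → Ω) → E)
    (hf : ∀ ξ, ∑ a, f a ξ = 0) (hf' : ∀ a b ξ, f a (Function.update ξ K b) = f a ξ)
    (hg : ∀ b ξ, g (Function.update ξ K b) = g ξ) :
    ∑ ξ, ⟪f (ξ K) ξ, g ξ⟫_ℂ = 0 := by
  have h := card_nsmul_sum (fun ξ : ι → Ω => ⟪f (ξ K) ξ, g ξ⟫_ℂ) K
  simp only [Function.update_self, hf', hg, ← sum_inner, hf, inner_zero_left,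
    Finset.sum_const_zero, nsmul_eq_mul, mul_eq_zero, Nat.cast_eq_zero] at h
  exact h.resolve_left Fintype.card_ne_zero

/-- Independent centred vectors are orthogonal in mean. -/
theorem sum_sq_single (g : ι → Ω → E) (hg : ∀ K, ∑ a, g K a = 0) :
    ∑ ξ : ι → Ω, ‖∑ K, g K (ξ K)‖ ^ 2 = ∑ ξ : ι → Ω, ∑ K, ‖g K (ξ K)‖ ^ 2 := by
  simp only [← inner_self_eq_norm_sq (𝕜 := ℂ), sum_inner, inner_sum, map_sum]
  rw [Finset.sum_comm]
  conv_rhs => rw [Finset.sum_comm]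
  refine Finset.sum_congr rfl fun K _ => ?_
  rw [Finset.sum_comm, Finset.sum_eq_single K (fun L _ hL => ?_) (by simp)]
  rw [← map_sum, sum_inner_eq_zero (fun a _ => g L a) (fun ξ => g K (ξ K)) (fun _ => hg L)
    (fun _ _ _ => rfl) (fun b ξ => by rw [Function.update_of_ne hL.symm]), map_zero]

/-- Doubly centred pairs are orthogonal in mean, up to the transposition. -/
theorem sum_sq_pairs (T : ι → ι → Ω → Ω → E) (h₁ : ∀ K L b, ∑ a, T K L a b = 0)
    (h₂ : ∀ K L a, ∑ b, T K L a b = 0) :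
    ∑ ξ : ι → Ω, ‖∑ p ∈ (Finset.univ : Finset ι).offDiag, T p.1 p.2 (ξ p.1) (ξ p.2)‖ ^ 2 ≤
      2 * ∑ ξ : ι → Ω, ∑ p ∈ (Finset.univ : Finset ι).offDiag,
        ‖T p.1 p.2 (ξ p.1) (ξ p.2)‖ ^ 2 := by
  classical
  set O := (Finset.univ : Finset ι).offDiag with hO
  set F : ι × ι → (ι → Ω) → E := fun p ξ => T p.1 p.2 (ξ p.1) (ξ p.2)
  set S : ι × ι → ℝ := fun p => ∑ ξ, ‖F p ξ‖ ^ 2
  set G : ι × ι → ι × ι → ℝ := fun p q => RCLike.re (∑ ξ, ⟪F p ξ, F q ξ⟫_ℂ) with hG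
  have hzero : ∀ p ∈ O, ∀ q ∈ O, q ≠ p → q ≠ p.swap → G p q = 0 := by
    intro p hp q hq n1 n2
    have hp' : p.1 ≠ p.2 := (Finset.mem_offDiag.1 hp).2.2
    suffices ∑ ξ, ⟪F p ξ, F q ξ⟫_ℂ = 0 by simp only [hG]; rw [this, map_zero]
    by_cases ha : p.1 ≠ q.1 ∧ p.1 ≠ q.2
    · refine sum_inner_eq_zero (K := p.1) (fun a ξ => T p.1 p.2 a (ξ p.2)) (F q)
        (fun ξ => h₁ _ _ _) (fun a b ξ => ?_) fun b ξ => ?_
      · simp [Function.update_of_ne hp'.symm]
      · simp [F, Function.update_of_ne ha.1.symm, Function.update_of_ne ha.2.symm]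
    by_cases hb : p.2 ≠ q.1 ∧ p.2 ≠ q.2
    · refine sum_inner_eq_zero (K := p.2) (fun b ξ => T p.1 p.2 (ξ p.1) b) (F q)
        (fun ξ => h₂ _ _ _) (fun a b ξ => ?_) fun b ξ => ?_
      · simp [Function.update_of_ne hp']
      · simp [F, Function.update_of_ne hb.1.symm, Function.update_of_ne hb.2.symm]
    simp only [not_and_or, not_not] at ha hb
    rcases ha with ha | ha <;> rcases hb with hb | hb
    · exact absurd (ha.trans hb.symm) hp'
    · exact absurd (Prod.ext ha.symm hb.symm) n1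
    · exact absurd (Prod.ext hb.symm ha.symm) n2
    · exact absurd (ha.trans hb.symm) hp'
  have hbound : ∀ p q, G p q ≤ (S p + S q) / 2 := fun p q => by
    simp only [hG, map_sum, S]
    rw [← Finset.sum_add_distrib, Finset.sum_div]
    refine Finset.sum_le_sum fun ξ _ => ?_
    refine (RCLike.re_le_norm _).trans ((norm_inner_le_norm _ _).trans ?_)
    nlinarith [sq_nonneg (‖F p ξ‖ - ‖F q ξ‖)]
  have e : ∑ ξ : ι → Ω, ‖∑ p ∈ O, F p ξ‖ ^ 2 = ∑ p ∈ O, ∑ q ∈ O, G p q := by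
    simp only [← inner_self_eq_norm_sq (𝕜 := ℂ), sum_inner, inner_sum, map_sum, hG]
    rw [Finset.sum_comm]
    refine Finset.sum_congr rfl fun p _ => ?_
    rw [Finset.sum_comm]
    exact Finset.sum_congr rfl fun q _ => Finset.sum_congr rfl fun ξ _ => inner_re_symm _ _
  rw [e, Finset.mul_sum]
  refine (Finset.sum_le_sum fun p hp => (?_ : _ ≤ (S p + S p) / 2 + (S p + S p.swap) / 2)).trans ?_
  · have hp' : p.1 ≠ p.2 := (Finset.mem_offDiag.1 hp).2.2
    have hne : p ≠ p.swap := fun h => hp' (congrArg Prod.fst h)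
    have hsub : ∀ q ∈ O, q ∉ ({p, p.swap} : Finset (ι × ι)) → G p q = 0 := fun q hq hn => by
      simp only [Finset.mem_insert, Finset.mem_singleton, not_or] at hn
      exact hzero p hp q hq hn.1 hn.2
    have hsw : p.swap ∈ O := by
      simp [hO, Ne.symm hp']
    rw [← Finset.sum_subset (s₁ := {p, p.swap})
      (Finset.insert_subset hp (Finset.singleton_subset_iff.2 hsw)) hsub,
      Finset.sum_pair hne]
    exact add_le_add (hbound _ _) (hbound _ _)
  · have hswap : ∑ p ∈ O, S p.swap = ∑ p ∈ O, S p :=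
      Finset.sum_nbij' Prod.swap Prod.swap (by simp [hO, ne_comm]) (by simp [hO, ne_comm])
        (by simp) (by simp) (by simp)
    rw [← Finset.mul_sum, Finset.sum_comm (γ := ι → Ω), Finset.sum_add_distrib, ← Finset.sum_div,
      ← Finset.sum_div, Finset.sum_add_distrib, Finset.sum_add_distrib, hswap]
    linarith

omit [Fintype ι] [DecidableEq ι] [Nonempty Ω] in
/-- Subtracting the mean does not raise the second moment. -/
lemma sum_sq_sub_mean (g : Ω → E) (μ : E) (hμ : ∑ a, g a = Fintype.card Ω • μ) :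
    ∑ a, ‖g a - μ‖ ^ 2 ≤ ∑ a, ‖g a‖ ^ 2 := by
  have h : ∑ a, ‖g a - μ‖ ^ 2 = ∑ a, ‖g a‖ ^ 2 - Fintype.card Ω * ‖μ‖ ^ 2 := by
    simp only [norm_sub_sq (𝕜 := ℂ), Finset.sum_add_distrib, Finset.sum_sub_distrib, ← Finset.mul_sum,
      ← map_sum, ← sum_inner, hμ, Finset.sum_const, Finset.card_univ, nsmul_eq_mul]
    rw [← Nat.cast_smul_eq_nsmul ℂ, inner_smul_left, inner_self_eq_norm_sq_to_K]
    simp [← Complex.ofReal_pow]
    ring
  rw [h]
  linarith [mul_nonneg (Nat.cast_nonneg (α := ℝ) (Fintype.card Ω)) (sq_nonneg ‖μ‖)]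

end Vale.Agent.P078.Sf
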