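import Vale.Agent.P078.Sf.Limit
import Vale.Agent.P078.Sf.Moments

/-!
# Random colours outside the finite part of `A`
-/

open Filter Topology
open scoped ComplexOrder InnerProductSpace

noncomputable section

namespace Vale.Agent.P078.Sf

universe u

variable {H : Type u} [NormedAddCommGroup H] [InnerProductSpace ℂ H] [CompleteSpace H]
  {S : Semi H}

/-- The sample at one cell: one of the partitions and a colour for each of their pieces. -/
abbrev Sample {m : ℕ} (P : Fin m → Part S) (r : ℕ) : Type :=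
  Fin m × ((Σ j, Fin (P j).n) → Fin r)

variable {m r : ℕ} (P : Fin m → Part S)

/-- The pieces of colour `c` of a sample. -/
def colour (ω : Sample P r) (c : Fin r) : Op H :=
  ∑ A, if ω.2 ⟨ω.1, A⟩ = c then (P ω.1).p A else 0

lemma colour_mem (ω : Sample P r) (c : Fin r) : colour P ω c ∈ S.A :=
  sum_mem fun A _ => by split_ifs; exacts [(P _).mem A, zero_mem _]

lemma colour_mul (ω : Sample P r) (c d : Fin r) :
    colour P ω c * colour P ω d = if c = d then colour P ω c else 0 := by
  simp only [colour, Finset.sum_mul, Finset.mul_sum]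
  split_ifs with h
  · subst h
    refine Finset.sum_congr rfl fun A _ => ?_
    rw [Finset.sum_eq_single A (fun B _ hB => ?_) (by simp)]
    · split_ifs <;> simp [(P ω.1).mul_self]
    · split_ifs <;> simp [(P ω.1).orth _ _ hB]
  · refine Finset.sum_eq_zero fun A _ => Finset.sum_eq_zero fun B _ => ?_
    by_cases hAB : A = B
    · subst hAB
      split_ifs with h1 h2
      · exact absurd (h1.symm.trans h2) h
      all_goals simp
    · split_ifs <;> simp [(P ω.1).orth _ _ (Ne.symm hAB)]

lemma colour_proj (ω : Sample P r) (c : Fin r) : IsStarProjection (colour P ω c) := by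
  refine ⟨show _ * _ = _ by rw [colour_mul, if_pos rfl], ?_⟩
  rw [IsSelfAdjoint, colour, star_sum]
  refine Finset.sum_congr rfl fun A _ => ?_
  split_ifs <;> simp [Part.star_p]

lemma sum_colour (ω : Sample P r) : ∑ c, colour P ω c = 1 := by
  simp only [colour]
  rw [Finset.sum_comm, ← (P ω.1).sum_eq]
  exact Finset.sum_congr rfl fun A _ => by simp

/-- The centred colour. -/
def dev (ω : Sample P r) (c : Fin r) : Op H := colour P ω c - (1 / (r : ℝ)) • (1 : Op H)

lemma dev_mem (ω : Sample P r) (c : Fin r) : dev P ω c ∈ S.A := by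
  refine sub_mem (colour_mem P ω c) ?_
  rw [← Complex.coe_smul (1 / (r : ℝ)) (1 : Op H)]
  exact S.A.smul_mem (one_mem _) _

lemma star_dev (ω : Sample P r) (c : Fin r) : star (dev P ω c) = dev P ω c := by
  rw [dev, ← Complex.coe_smul (1 / (r : ℝ)) (1 : Op H), star_sub, star_smul, star_one,
    Complex.star_def, Complex.conj_ofReal, (colour_proj P ω c).isSelfAdjoint.star_eq]

variable [NeZero r]

lemma norm_dev_le (ω : Sample P r) (c : Fin r) : ‖dev P ω c‖ ≤ 2 := by
  have hr : (1 : ℝ) ≤ r := by exact_mod_cast NeZero.one_le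
  refine (norm_sub_le _ _).trans ?_
  rw [norm_smul, Real.norm_eq_abs, abs_of_nonneg (by positivity)]
  have h1 := (colour_proj P ω c).norm_le
  have h2 : ‖(1 : Op H)‖ ≤ 1 := ContinuousLinearMap.norm_id_le
  have h3 : 1 / (r : ℝ) ≤ 1 := (div_le_one (by linarith)).2 hr
  nlinarith [norm_nonneg (1 : Op H), show 0 ≤ 1 / (r : ℝ) by positivity]

lemma sum_colour_sample (c : Fin r) :
    ∑ ω : Sample P r, colour P ω c = (Fintype.card (Sample P r) / r : ℝ) • (1 : Op H) := by
  have hr : (r : ℝ) ≠ 0 := NeZero.ne _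
  have h : ∀ d, ∑ ω : Sample P r, colour P ω d = ∑ ω : Sample P r, colour P ω c := fun d => by
    refine Fintype.sum_equiv (Equiv.prodCongr (Equiv.refl _)
      (Equiv.piCongrRight fun _ => Equiv.addRight (c - d))) _ _ fun ω => ?_
    refine Finset.sum_congr rfl fun A _ => ?_
    refine if_congr ?_ rfl rfl
    show ω.2 ⟨ω.1, A⟩ = d ↔ ω.2 ⟨ω.1, A⟩ + (c - d) = c
    rw [← eq_sub_iff_add_eq, sub_sub_cancel]
  have h' : (r : ℝ) • ∑ ω : Sample P r, colour P ω c =
      (Fintype.card (Sample P r) : ℝ) • (1 : Op H) := by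
    rw [Nat.cast_smul_eq_nsmul, Nat.cast_smul_eq_nsmul]
    calc r • ∑ ω : Sample P r, colour P ω c
        = ∑ d : Fin r, ∑ ω : Sample P r, colour P ω d := by
          rw [Finset.sum_congr rfl fun d _ => h d, Finset.sum_const, Finset.card_univ, Fintype.card_fin]
      _ = _ := by
          rw [Finset.sum_comm, Finset.sum_congr rfl fun ω _ => sum_colour P ω, Finset.sum_const,
            Finset.card_univ]
  rw [← inv_smul_smul₀ hr (∑ ω : Sample P r, colour P ω c), h', smul_smul, inv_mul_eq_div]

lemma sum_dev (c : Fin r) : ∑ ω : Sample P r, dev P ω c = 0 := by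
  simp only [dev, Finset.sum_sub_distrib, sum_colour_sample, Finset.sum_const, Finset.card_univ]
  rw [← Nat.cast_smul_eq_nsmul ℝ, smul_smul, mul_one_div, sub_self]

lemma count_pair {κ : Type*} [Fintype κ] [DecidableEq κ] (A B : κ) (c : Fin r) :
    ∑ col : κ → Fin r, (if col A = c ∧ col B = c then (1 : ℝ) else 0) =
      Fintype.card (κ → Fin r) * (1 / (r : ℝ) ^ 2 +
        if A = B then 1 / (r : ℝ) - 1 / (r : ℝ) ^ 2 else 0) := by
  have hr : (r : ℝ) ≠ 0 := NeZero.ne _
  have h1 : ∀ B : κ, (r : ℝ) * ∑ col : κ → Fin r, (if col B = c then (1 : ℝ) else 0) =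
      Fintype.card (κ → Fin r) := fun B => by
    have := card_nsmul_sum (fun col : κ → Fin r => if col B = c then (1 : ℝ) else 0) B
    simpa [nsmul_eq_mul, Finset.sum_ite_eq'] using this
  by_cases h : A = B
  · subst h
    simp only [and_self, if_true]
    rw [← h1 A]
    field_simp
    ring
  · have := card_nsmul_sum (fun col : κ → Fin r => if col A = c ∧ col B = c then (1 : ℝ) else 0) A
    simp only [nsmul_eq_mul, Fintype.card_fin, Function.update_self,
      Function.update_of_ne (Ne.symm h), ite_and, Finset.sum_ite_eq', Finset.mem_univ, if_true]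
      at this
    rw [if_neg h, add_zero, ← h1 B, ← this]
    simp only [ite_and]
    field_simp

lemma sum_dev_conj (x : Op H) (c : Fin r) :
    ∑ ω : Sample P r, dev P ω c * x * dev P ω c =
      ((Fintype.card (Sample P r) : ℝ) * (1 / (r : ℝ) - 1 / (r : ℝ) ^ 2) / m) •
        ∑ j, (P j).pinch x := by
  classical
  have hΩ : (Fintype.card (Sample P r) : ℝ) =
      m * Fintype.card ((Σ j, Fin (P j).n) → Fin r) := by simp
  set D : ℝ := ((Fintype.card ((Σ j, Fin (P j).n) → Fin r) : ℕ) : ℝ) with hD
  have hsq : ∑ ω : Sample P r, colour P ω c * x * colour P ω c =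
      ((Fintype.card (Sample P r) : ℝ) / (r : ℝ) ^ 2) • x +
        (D * (1 / (r : ℝ) - 1 / (r : ℝ) ^ 2)) • ∑ j, (P j).pinch x := by
    rw [hΩ, Fintype.sum_prod_type, Finset.smul_sum,
      show ((m : ℝ) * D / (r : ℝ) ^ 2) • x = ∑ _j : Fin m, (D / (r : ℝ) ^ 2) • x by
        rw [Finset.sum_const, Finset.card_univ, Fintype.card_fin, ← Nat.cast_smul_eq_nsmul ℝ,
          smul_smul, mul_div_assoc],
      ← Finset.sum_add_distrib]
    refine Finset.sum_congr rfl fun j _ => ?_
    have e : ∀ col : (Σ j, Fin (P j).n) → Fin r, colour P (j, col) c * x * colour P (j, col) c =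
        ∑ A, ∑ B, (if col ⟨j, A⟩ = c ∧ col ⟨j, B⟩ = c then (1 : ℝ) else 0) •
          ((P j).p A * x * (P j).p B) := fun col => by
      simp only [colour, Finset.sum_mul, Finset.mul_sum]
      rw [Finset.sum_comm]
      refine Finset.sum_congr rfl fun A _ => Finset.sum_congr rfl fun B _ => ?_
      split_ifs <;> simp_all
    rw [Finset.sum_congr rfl fun col _ => e col, Finset.sum_comm]
    simp_rw [Finset.sum_comm (γ := (Σ j, Fin (P j).n) → Fin r), ← Finset.sum_smul, count_pair,
      ← hD, Sigma.mk.injEq, heq_eq_eq, true_and, mul_add, add_smul, Finset.sum_add_distrib,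
      ← Finset.smul_sum, mul_ite, mul_zero, ite_smul, zero_smul, Finset.sum_ite_eq, Finset.mem_univ,
      if_true, ← Finset.smul_sum, Part.pinch]
    congr 1
    simp only [← Finset.mul_sum, ← Finset.sum_mul, (P j).sum_eq, one_mul, mul_one]
    rw [mul_one_div]
  have e : ∀ ω : Sample P r, dev P ω c * x * dev P ω c = colour P ω c * x * colour P ω c -
      (1 / (r : ℝ)) • (colour P ω c * x + x * colour P ω c) +
        (1 / (r : ℝ) * (1 / (r : ℝ))) • x := fun ω => by
    simp only [dev, sub_mul, mul_sub, smul_mul_assoc, mul_smul_comm, one_mul, mul_one, smul_sub,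
      smul_smul, smul_add]
    abel
  rw [Finset.sum_congr rfl fun ω _ => e ω, Finset.sum_add_distrib, Finset.sum_sub_distrib, hsq,
    ← Finset.smul_sum, Finset.sum_add_distrib, ← Finset.sum_mul, ← Finset.mul_sum, sum_colour_sample,
    Finset.sum_const, Finset.card_univ, ← Nat.cast_smul_eq_nsmul ℝ, smul_mul_assoc, mul_smul_comm,
    one_mul, mul_one]
  rcases Nat.eq_zero_or_pos m with hm | hm
  · subst hm; simp
  have hm' : (m : ℝ) ≠ 0 := by positivity
  rw [hΩ]
  match_scalars <;> field_simp <;> ring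

end Vale.Agent.P078.Sf
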