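import Vale.Agent.P078.Sf.Zero

/-!
# The corner of a finite projection of `A`
-/

open scoped ComplexOrder InnerProductSpace

noncomputable section

namespace Vale.Agent.P078.Sf

universe u

variable {H : Type u} [NormedAddCommGroup H] [InnerProductSpace ℂ H] [CompleteSpace H]

/-- A square summable family can be listed by the natural numbers. -/
lemma exists_nat_list {I : Type*} {K : Type*} [NormedAddCommGroup K] (w : I → K)
    (hw : Summable fun i => ‖w i‖ ^ 2) :
    ∃ u : ℕ → K, ∀ {E : Type} [NormedAddCommGroup E] (g : K → E), g 0 = 0 → ∀ a : E,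
      HasSum (fun i => g (w i)) a ↔ HasSum (fun k => g (u k)) a := by
  classical
  set s : Set I := Function.support fun i => ‖w i‖ ^ 2
  have hs : s.Countable := hw.countable_support
  have := hs.toEncodable
  have hinj : Function.Injective (Encodable.encode : s → ℕ) := Encodable.encode_injective
  refine ⟨Function.extend (Encodable.encode : s → ℕ) (fun i => w i) 0, fun {E} _ g hg a => ?_⟩
  rw [← hasSum_subtype_iff_of_support_subset (s := s) (f := fun i => g (w i)) fun i hi => by
    by_contra h
    simp only [s, Function.mem_support, ne_eq, not_not, sq_eq_zero_iff, norm_eq_zero] at h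
    exact hi (by simp only [h, hg]), ← hinj.hasSum_iff (f := fun k =>
      g (Function.extend (Encodable.encode : s → ℕ) (fun i => w i) 0 k)) fun k hk => by
    rw [Function.extend_apply' _ _ _ fun ⟨i, hi⟩ => hk ⟨i, hi⟩, Pi.zero_apply, hg]]
  refine iff_of_eq (congrArg (fun f => HasSum f a) (funext fun i => ?_))
  simp [hinj.extend_apply]

section lift

variable (K : Submodule ℂ H) [CompleteSpace K]

/-- An operator on a subspace, extended by zero. -/
def lift (T : Op K) : Op H := K.subtypeL ∘L T ∘L K.orthogonalProjectionOnto

/-- The compression to a subspace. -/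
def compress (x : Op H) : Op K := K.orthogonalProjectionOnto ∘L x ∘L K.subtypeL

omit [CompleteSpace H] in
lemma proj_coe (v : K) : K.orthogonalProjectionOnto (v : H) = v :=
  Submodule.orthogonalProjectionOnto_mem_subspace_eq_self v

omit [CompleteSpace H] in
lemma lift_apply (T : Op K) (v : H) : lift K T v = (T (K.orthogonalProjectionOnto v) : H) := rfl

omit [CompleteSpace H] in
lemma lift_mul (S T : Op K) : lift K (S * T) = lift K S * lift K T :=
  ContinuousLinearMap.ext fun v => by
    simp [lift_apply, mul_apply_eq_comp]

omit [CompleteSpace H] in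
lemma lift_add (S T : Op K) : lift K (S + T) = lift K S + lift K T :=
  ContinuousLinearMap.ext fun v => by simp [lift_apply]

omit [CompleteSpace H] in
lemma lift_sub (S T : Op K) : lift K (S - T) = lift K S - lift K T :=
  ContinuousLinearMap.ext fun v => by simp [lift_apply]

omit [CompleteSpace H] in
lemma lift_zero : lift K 0 = 0 := ContinuousLinearMap.ext fun v => by simp [lift_apply]

omit [CompleteSpace H] in
lemma lift_smul (c : ℂ) (T : Op K) : lift K (c • T) = c • lift K T :=
  ContinuousLinearMap.ext fun v => by simp [lift_apply]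

omit [CompleteSpace H] in
lemma lift_sum {ι : Type*} (s : Finset ι) (f : ι → Op K) :
    lift K (∑ i ∈ s, f i) = ∑ i ∈ s, lift K (f i) :=
  map_sum (AddMonoidHom.mk' (lift K) (lift_add K)) f s

omit [CompleteSpace H] in
lemma lift_one : lift K 1 = K.starProjection := rfl

lemma lift_star (T : Op K) : lift K (star T) = star (lift K T) := by
  simp only [lift, ContinuousLinearMap.star_eq_adjoint, ContinuousLinearMap.adjoint_comp,
    Submodule.adjoint_orthogonalProjectionOnto, Submodule.adjoint_subtypeL, ContinuousLinearMap.comp_assoc]

lemma compress_star (x : Op H) : compress K (star x) = star (compress K x) := by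
  simp only [compress, ContinuousLinearMap.star_eq_adjoint, ContinuousLinearMap.adjoint_comp,
    Submodule.adjoint_orthogonalProjectionOnto, Submodule.adjoint_subtypeL, ContinuousLinearMap.comp_assoc]

omit [CompleteSpace H] in
lemma lift_compress (x : Op H) : lift K (compress K x) = K.starProjection * x * K.starProjection :=
  rfl

omit [CompleteSpace H] in
lemma lift_injective {S T : Op K} (h : lift K S = lift K T) : S = T :=
  ContinuousLinearMap.ext fun v => by
    simpa [lift_apply, proj_coe] using DFunLike.congr_fun h (v : H)

omit [CompleteSpace H] in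
lemma norm_lift_le (T : Op K) : ‖lift K T‖ ≤ ‖T‖ :=
  ContinuousLinearMap.opNorm_le_bound _ (norm_nonneg _) fun v => by
    rw [lift_apply]
    show ‖T _‖ ≤ _
    exact (T.le_opNorm _).trans
      (mul_le_mul_of_nonneg_left (K.norm_orthogonalProjectionOnto_apply_le v) (norm_nonneg _))

omit [CompleteSpace H] in
lemma norm_compress_le (x : Op H) : ‖compress K x‖ ≤ ‖x‖ :=
  ContinuousLinearMap.opNorm_le_bound _ (norm_nonneg _) fun _ =>
    (K.norm_orthogonalProjectionOnto_apply_le _).trans (x.le_opNorm _)

lemma isStarProjection_lift {T : Op K} (h : IsStarProjection T) : IsStarProjection (lift K T) :=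
  ⟨show _ * _ = _ by rw [← lift_mul, h.isIdempotentElem.eq],
    show star _ = _ by rw [← lift_star, h.isSelfAdjoint.star_eq]⟩

omit [CompleteSpace H] in
lemma star_mul_mul (T : Op K) : K.starProjection * lift K T * K.starProjection = lift K T := by
  rw [← lift_one, ← lift_mul, ← lift_mul, one_mul, mul_one]

end lift

namespace Semi

variable (S : Semi H) (K : Submodule ℂ H) [CompleteSpace K]

/-- The algebra of the corner. -/
def cornerM : VonNeumannAlgebra K where
  toStarSubalgebra := StarSubalgebra.centralizer ℂ (compress K '' (S.M.commutant : Set (Op H)))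
  centralizer_centralizer' := by simp

variable {K}

lemma lift_mem_M (hK : K.starProjection ∈ S.M) {T : Op K} (hT : T ∈ S.cornerM K) :
    lift K T ∈ S.M := by
  refine S.mem_M_iff.2 fun y hy => ContinuousLinearMap.ext fun v => ?_
  have hc := DFunLike.congr_fun ((StarSubalgebra.mem_centralizer_iff ℂ).1
    (hT : T ∈ StarSubalgebra.centralizer ℂ _) _ ⟨y, hy, rfl⟩).1 (K.orthogonalProjectionOnto v)
  have he : ∀ z, y (K.starProjection z) = K.starProjection (y z) := fun z =>
    DFunLike.congr_fun (S.commute_of_mem hK hy).eq z
  have hmem : ∀ w : K, y (w : H) ∈ K := fun w => by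
    rw [← Submodule.starProjection_eq_self_iff, ← he,
      Submodule.starProjection_eq_self_iff.2 w.2]
  have h1 : ∀ w : K, (compress K y w : H) = y (w : H) := fun w =>
    Submodule.starProjection_eq_self_iff.2 (hmem w)
  have h2 : compress K y (K.orthogonalProjectionOnto v) = K.orthogonalProjectionOnto (y v) := by
    refine Subtype.ext ((h1 _).trans ?_)
    exact he v
  rw [mul_apply_eq_comp, mul_apply_eq_comp, lift_apply, lift_apply, ← h2, ← h1]
  exact congrArg Subtype.val hc

lemma compress_mem (hK : K.starProjection ∈ S.M) {x : Op H} (hx : x ∈ S.M) :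
    compress K x ∈ S.cornerM K := by
  change compress K x ∈ StarSubalgebra.centralizer ℂ _
  have key : ∀ y ∈ S.M.commutant, compress K y * compress K x = compress K x * compress K y := by
    intro y hy
    refine lift_injective K ?_
    rw [lift_mul, lift_mul, lift_compress, lift_compress]
    have h1 : Commute y (K.starProjection * x * K.starProjection) :=
      S.commute_of_mem (mul_mem (mul_mem hK hx) hK) hy
    have h2 : Commute y K.starProjection := S.commute_of_mem hK hy
    have hP : K.starProjection * K.starProjection = K.starProjection :=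
      isStarProjection_starProjection.isIdempotentElem.eq
    have e1 : K.starProjection * y * K.starProjection = y * K.starProjection := by
      rw [← h2.eq, mul_assoc, hP]
    rw [e1]
    calc y * K.starProjection * (K.starProjection * x * K.starProjection)
        = y * (K.starProjection * x * K.starProjection) := by
          simp only [← mul_assoc]; rw [mul_assoc y, hP]
      _ = K.starProjection * x * K.starProjection * y := h1.eq
      _ = _ := by rw [h2.eq]; simp only [← mul_assoc]; rw [mul_assoc (K.starProjection * x) K.starProjection K.starProjection, hP]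
  rw [StarSubalgebra.mem_centralizer_iff]
  rintro _ ⟨y, hy, rfl⟩
  exact ⟨key y hy, by rw [← compress_star]; exact key _ (star_mem hy)⟩

variable (K)

/-- The MASA of the corner. -/
def cornerA (hK : K.starProjection ∈ S.A) : StarSubalgebra ℂ (Op K) where
  carrier := {T | lift K T ∈ S.A}
  mul_mem' {a b} ha hb := by simpa only [Set.mem_ofPred_eq, lift_mul] using mul_mem ha hb
  one_mem' := by simpa only [Set.mem_ofPred_eq, lift_one] using hK
  add_mem' {a b} ha hb := by simpa only [Set.mem_ofPred_eq, lift_add] using add_mem ha hb
  zero_mem' := by simpa only [Set.mem_ofPred_eq, lift_zero] using zero_mem S.A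
  algebraMap_mem' c := by
    simpa only [Set.mem_ofPred_eq, Algebra.algebraMap_eq_smul_one, lift_smul, lift_one]
      using S.A.smul_mem hK c
  star_mem' {a} ha := by simpa only [Set.mem_ofPred_eq, lift_star] using star_mem ha

lemma mem_cornerA {hK : K.starProjection ∈ S.A} {T : Op K} :
    T ∈ S.cornerA K hK ↔ lift K T ∈ S.A := Iff.rfl

/-- The corner of a nonzero finite projection of `A` has a faithful normal tracial state. -/
theorem exists_corner (hKA : K.starProjection ∈ S.A) (hKf : K.starProjection ∈ S.fin)
    (h0 : K.starProjection ≠ 0) :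
    ∃ R : Tr.Tracial K, R.M = S.cornerM K ∧ R.A = S.cornerA K hKA := by
  have hKM := S.le _ hKA
  have hpos : 0 < ‖S.vc K.starProjection‖ :=
    norm_pos_iff.2 fun h => h0 (vc_injective hKf h)
  set t : ℝ := ‖S.vc K.starProjection‖⁻¹ with ht
  have ht0 : 0 < t := inv_pos.2 hpos
  set w : S.I → K := fun i => (t : ℂ) • K.orthogonalProjectionOnto (S.vec i)
  have hnorm : HasSum (fun i => ‖w i‖ ^ 2) 1 := by
    have h := (hasSum_norm_sq hKf).mul_left (t ^ 2)
    rw [show t ^ 2 * ‖S.vc K.starProjection‖ ^ 2 = 1 by rw [ht]; field_simp] at h
    refine h.congr_fun fun i => ?_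
    simp only [w, norm_smul, Complex.norm_real, Real.norm_eq_abs, abs_of_pos ht0, mul_pow]
    rfl
  obtain ⟨u, hu⟩ := exists_nat_list w hnorm.summable
  have hfin : ∀ {T : Op K}, T ∈ S.cornerM K → lift K T ∈ S.fin := fun {T} hT => by
    rw [← mul_one T, lift_mul, lift_one]
    exact S.mul_mem_fin_left (S.lift_mem_M hKM hT) hKf
  have htau : ∀ x ∈ S.cornerM K, ∀ y ∈ S.cornerM K,
      HasSum (fun k => ⟪u k, (x * y) (u k)⟫_ℂ)
        ((t : ℂ) ^ 2 * ⟪S.vc (lift K (star x)), S.vc (lift K y)⟫_ℂ) := by
    intro x hx y hy
    refine (hu (fun v : K => ⟪v, (x * y) v⟫_ℂ) (by simp) _).1 ?_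
    refine ((inner_vc (hfin (star_mem hx)) (hfin hy)).mul_left ((t : ℂ) ^ 2)).congr_fun fun i => ?_
    simp only [w, map_smul, inner_smul_left, inner_smul_right, Complex.conj_ofReal, lift_apply,
      ← Submodule.coe_inner, mul_apply_eq_comp, ContinuousLinearMap.star_eq_adjoint,
      ContinuousLinearMap.adjoint_inner_left]
    ring
  refine ⟨{
    M := S.cornerM K
    A := S.cornerA K hKA
    le := fun a ha => ?_
    comm := fun a ha b hb => lift_injective K (by
      rw [lift_mul, lift_mul, S.comm _ ha _ hb])
    masa := fun x hx hc => S.masa _ (S.lift_mem_M hKM hx) fun a ha => ?_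
    vec := u
    norm_one := (hu (fun v => ‖v‖ ^ 2) (by simp) 1).1 hnorm
    separating := fun x hx h => ?_
    trace := fun x hx y hy => ?_ }, rfl, rfl⟩
  · have := S.compress_mem hKM (S.le _ ha)
    rwa [show compress K (lift K a) = a from lift_injective K (by rw [lift_compress, star_mul_mul])]
      at this
  · have hP : K.starProjection * a * K.starProjection = a * K.starProjection := by
      rw [S.comm _ hKA a ha, mul_assoc, isStarProjection_starProjection.isIdempotentElem.eq]
    have hca : compress K a ∈ S.cornerA K hKA := by
      rw [mem_cornerA, lift_compress]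
      exact mul_mem (mul_mem hKA ha) hKA
    have h := congrArg (lift K) (hc _ hca)
    rw [lift_mul, lift_mul, lift_compress, hP] at h
    have e1 : lift K x * K.starProjection = lift K x := by rw [← lift_one, ← lift_mul, mul_one]
    have e2 : K.starProjection * lift K x = lift K x := by rw [← lift_one, ← lift_mul, one_mul]
    rw [mul_assoc, e2] at h
    rw [← S.comm _ hKA a ha, ← mul_assoc, e1] at h
    exact h
  · have h1 : HasSum (fun k => ‖x (u k)‖) 0 := by simp [h, hasSum_zero]
    have h2 := (hasSum_zero_iff_of_nonneg fun i => norm_nonneg _).1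
      ((hu (fun v => ‖x v‖) (by simp) 0).2 h1)
    refine lift_injective K ?_
    rw [lift_zero]
    refine S.separating _ (S.lift_mem_M hKM hx) fun i => ?_
    have := congrFun h2 i
    simp only [Pi.zero_apply, norm_eq_zero, w, map_smul, smul_eq_zero, Complex.ofReal_eq_zero,
      ht0.ne', false_or] at this
    rw [lift_apply, this, Submodule.coe_zero]
  · rw [(htau x hx y hy).tsum_eq, (htau y hy x hx).tsum_eq, ← inner_vc_star (hfin hy) (hfin (star_mem hx))]
    rw [← lift_star, ← lift_star, star_star]

end Semi

end Vale.Agent.P078.Sf
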