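import Mathlib

/-!
# MASAs of semifinite von Neumann algebras

A MASA `A` of a von Neumann algebra `M` on `H` with a faithful normal semifinite trace, written as
`x ↦ ∑ i, ‖x (v i)‖ ^ 2` on squares.
-/

open scoped ComplexOrder InnerProductSpace

noncomputable section

namespace Vale.Agent.P078.Sf

universe u

/-- Bounded operators on `H`. -/
abbrev Op (H : Type u) [NormedAddCommGroup H] [InnerProductSpace ℂ H] := H →L[ℂ] H

/-- A maximal abelian `*`-subalgebra `A` of `M`, and a faithful normal semifinite trace on `M`. -/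
structure Semi (H : Type u) [NormedAddCommGroup H] [InnerProductSpace ℂ H] [CompleteSpace H] where
  /-- The von Neumann algebra. -/
  M : VonNeumannAlgebra H
  /-- The MASA. -/
  A : StarSubalgebra ℂ (Op H)
  le : ∀ a ∈ A, a ∈ M
  comm : ∀ a ∈ A, ∀ b ∈ A, a * b = b * a
  masa : ∀ x ∈ M, (∀ a ∈ A, x * a = a * x) → x ∈ A
  /-- The index of the vectors giving the trace. -/
  I : Type u
  /-- The vectors giving the trace. -/
  vec : I → H
  separating : ∀ x ∈ M, (∀ i, x (vec i) = 0) → x = 0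
  trace : ∀ x ∈ M, Summable (fun i => ‖x (vec i)‖ ^ 2) →
    HasSum (fun i => ‖(star x) (vec i)‖ ^ 2) (∑' i, ‖x (vec i)‖ ^ 2)
  semifinite : ∀ (F : Finset H) (δ : ℝ), 0 < δ → ∃ q ∈ M, IsStarProjection q ∧
    Summable (fun i => ‖q (vec i)‖ ^ 2) ∧ ∀ v ∈ F, ‖(1 - q) v‖ < δ

variable {H : Type u} [NormedAddCommGroup H] [InnerProductSpace ℂ H] [CompleteSpace H]

/-- A finite partition of the unit in `A` (zero pieces allowed). -/
structure Part (S : Semi H) where
  /-- The number of pieces. -/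
  n : ℕ
  /-- The pieces. -/
  p : Fin n → Op H
  mem : ∀ i, p i ∈ S.A
  proj : ∀ i, IsStarProjection (p i)
  orth : ∀ i j, i ≠ j → p i * p j = 0
  sum_eq : ∑ i, p i = 1

/-- `Q` is finer than `P`. -/
def Part.Refines {S : Semi H} (Q P : Part S) : Prop :=
  ∀ j, ∃ i, P.p i * Q.p j = Q.p j

/-- The pinching by a partition. -/
def Part.pinch {S : Semi H} (P : Part S) (x : Op H) : Op H := ∑ i, P.p i * x * P.p i

/-- `x` is `(ε, r)` so-pavable over `A` inside `M`. -/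
def SoPavable (S : Semi H) (x : Op H) (ε : ℝ) (r : ℕ) : Prop :=
  ∀ (F : Finset H) (δ : ℝ), 0 < δ →
    ∃ (p : Fin r → Op H) (a q : Op H),
      (∀ i, p i ∈ S.A ∧ IsStarProjection (p i)) ∧ (∀ i j, i ≠ j → p i * p j = 0) ∧ ∑ i, p i = 1 ∧
      a ∈ S.A ∧ IsSelfAdjoint a ∧ ‖a‖ ≤ ‖x‖ ∧ q ∈ S.M ∧ IsStarProjection q ∧
      (∀ v ∈ F, ‖(1 - q) v‖ < δ) ∧
      ‖q * (∑ i, p i * x * p i - a) * q‖ ≤ ε * ‖x‖

/-- `n ≤ C ε⁻²` for every MASA of every semifinite von Neumann algebra. -/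
def SemifinitePavingStatement : Prop :=
  ∃ C : ℝ, ∀ (H : Type u) [NormedAddCommGroup H] [InnerProductSpace ℂ H] [CompleteSpace H]
    (S : Semi H) (x : Op H) (ε : ℝ), x ∈ S.M → IsSelfAdjoint x → 0 < ε → ε < 1 →
    ∀ r : ℕ, C / ε ^ 2 ≤ r → SoPavable S x ε r

end Vale.Agent.P078.Sf
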