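import Vale.Agent.P078.Sf.Bridge
import Vale.Agent.P078.Tr.Basics
import Vale.Agent.P078.Tr.Iter.Cleanup
import Vale.Agent.P078.Tr.Iter.Walk
import Vale.Agent.P078.Tr.Iter.Reduce

/-!
# The semifinite theorem from the step of the walk
-/

noncomputable section

namespace Vale.Agent.P078.Sf

universe u

/-- What is left is the step of the tracial walk. -/
theorem semifinite_paving_of_step (h : Tr.Iter.StepStatement.{u}) :
    Semi.SemifinitePavingStatement.{u} :=
  standard_semifinite_of_tracial
    (Tr.Iter.tracial_paving_of_walk Tr.basics (Tr.Iter.walk Tr.Iter.cleanup h))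

end Vale.Agent.P078.Sf
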