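import Vale.Agent.P078.Sf.Defs

/-!
# The elements of finite 2-norm
-/

open Filter Topology
open scoped ComplexOrder InnerProductSpace ENNReal

noncomputable section

namespace Vale.Agent.P078.Sf

universe u

variable {H : Type u} [NormedAddCommGroup H] [InnerProductSpace ℂ H] [CompleteSpace H]

namespace Semi

variable (S : Semi H)

/-- The Hilbert space carrying the vectors of operators. -/
abbrev Big : Type u := lp (fun _ : S.I => H) 2

/-- The operators with finitely traced square. -/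
def fin : Submodule ℂ (Op H) where
  carrier := {x | x ∈ S.M ∧ Memℓp (fun i => x (S.vec i)) 2}
  add_mem' {x y} hx hy := ⟨add_mem hx.1 hy.1, hx.2.add hy.2⟩
  zero_mem' := ⟨zero_mem _, by simp only [zero_apply]; exact zero_memℓp⟩
  smul_mem' c x hx := ⟨S.M.toStarSubalgebra.smul_mem hx.1 c, hx.2.const_smul c⟩

lemma mem_fin {x : Op H} :
    x ∈ S.fin ↔ x ∈ S.M ∧ Summable fun i => ‖x (S.vec i)‖ ^ 2 := by
  refine and_congr Iff.rfl ⟨fun h => ?_, fun h => ?_⟩
  · simpa using h.summable (by norm_num : 0 < (2 : ℝ≥0∞).toReal)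
  · exact memℓp_gen (by simpa using h)

lemma fin_le {x : Op H} (h : x ∈ S.fin) : x ∈ S.M := h.1

lemma star_mem_fin {x : Op H} (h : x ∈ S.fin) : star x ∈ S.fin := by
  rw [mem_fin] at h ⊢
  exact ⟨star_mem h.1, (S.trace x h.1 h.2).summable⟩

lemma mul_mem_fin_left {x y : Op H} (hy : y ∈ S.M) (hx : x ∈ S.fin) : y * x ∈ S.fin := by
  rw [mem_fin] at hx ⊢
  refine ⟨mul_mem hy hx.1, (hx.2.mul_left (‖y‖ ^ 2)).of_nonneg_of_le (fun i => by positivity)
    fun i => ?_⟩
  rw [← mul_pow]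
  exact pow_le_pow_left₀ (norm_nonneg _) (y.le_opNorm _) 2

lemma mul_mem_fin_right {x y : Op H} (hx : x ∈ S.fin) (hy : y ∈ S.M) : x * y ∈ S.fin := by
  simpa using S.star_mem_fin (S.mul_mem_fin_left (star_mem hy) (S.star_mem_fin hx))

lemma sum_mem_fin {ι : Type*} (s : Finset ι) (f : ι → Op H) (h : ∀ i ∈ s, f i ∈ S.fin) :
    ∑ i ∈ s, f i ∈ S.fin := sum_mem h

/-- The vector of an operator of finite 2-norm. -/
def avec : S.fin →ₗ[ℂ] S.Big where
  toFun x := ⟨fun i => (x : Op H) (S.vec i), x.2.2⟩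
  map_add' x y := by ext i; rfl
  map_smul' c x := by ext i; rfl

/-- The vector, with value `0` off `fin`. -/
def vc (x : Op H) : S.Big :=
  open Classical in if h : x ∈ S.fin then S.avec ⟨x, h⟩ else 0

variable {S}

lemma vc_apply {x : Op H} (h : x ∈ S.fin) (i : S.I) : S.vc x i = x (S.vec i) := by
  rw [vc, dif_pos h]
  rfl

lemma vc_zero : S.vc 0 = 0 := by
  refine lp.ext (funext fun i => ?_)
  rw [vc_apply (zero_mem _)]
  simp

lemma vc_add {x y : Op H} (hx : x ∈ S.fin) (hy : y ∈ S.fin) : S.vc (x + y) = S.vc x + S.vc y := by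
  refine lp.ext (funext fun i => ?_)
  rw [vc_apply (add_mem hx hy), lp.coeFn_add, Pi.add_apply, vc_apply hx, vc_apply hy]
  rfl

lemma vc_sub {x y : Op H} (hx : x ∈ S.fin) (hy : y ∈ S.fin) : S.vc (x - y) = S.vc x - S.vc y := by
  refine lp.ext (funext fun i => ?_)
  rw [vc_apply (sub_mem hx hy), lp.coeFn_sub, Pi.sub_apply, vc_apply hx, vc_apply hy]
  rfl

lemma vc_smul {x : Op H} (hx : x ∈ S.fin) (c : ℂ) : S.vc (c • x) = c • S.vc x := by
  refine lp.ext (funext fun i => ?_)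
  rw [vc_apply (S.fin.smul_mem c hx), lp.coeFn_smul, Pi.smul_apply, vc_apply hx]
  rfl

lemma vc_sum {ι : Type*} (s : Finset ι) (f : ι → Op H) (h : ∀ i ∈ s, f i ∈ S.fin) :
    S.vc (∑ i ∈ s, f i) = ∑ i ∈ s, S.vc (f i) := by
  classical
  induction s using Finset.induction_on with
  | empty => simp [vc_zero]
  | insert a s ha ih =>
    rw [Finset.sum_insert ha, Finset.sum_insert ha,
      vc_add (h a (Finset.mem_insert_self a s))
        (sum_mem fun i hi => h i (Finset.mem_insert_of_mem hi)),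
      ih fun i hi => h i (Finset.mem_insert_of_mem hi)]

lemma hasSum_norm_sq {x : Op H} (h : x ∈ S.fin) :
    HasSum (fun i => ‖x (S.vec i)‖ ^ 2) (‖S.vc x‖ ^ 2) := by
  have := lp.hasSum_norm (p := 2) (by norm_num : 0 < (2 : ℝ≥0∞).toReal) (S.vc x)
  simpa [vc_apply h] using this

lemma norm_vc_star {x : Op H} (h : x ∈ S.fin) : ‖S.vc (star x)‖ = ‖S.vc x‖ := by
  refine (sq_eq_sq₀ (norm_nonneg _) (norm_nonneg _)).1 ?_
  refine (hasSum_norm_sq (S.star_mem_fin h)).unique ?_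
  rw [← (hasSum_norm_sq h).tsum_eq]
  exact S.trace x h.1 ((S.mem_fin.1 h).2)

lemma norm_vc_mul_left {x y : Op H} (hy : y ∈ S.M) (hx : x ∈ S.fin) :
    ‖S.vc (y * x)‖ ≤ ‖y‖ * ‖S.vc x‖ := by
  refine lp.norm_le_of_forall_sum_le (p := 2) (by norm_num) (by positivity) fun s => ?_
  simp only [ENNReal.toReal_ofNat, Real.rpow_two, vc_apply (S.mul_mem_fin_left hy hx)]
  refine (Finset.sum_le_sum fun i _ => pow_le_pow_left₀ (norm_nonneg _) (y.le_opNorm _) 2).trans ?_
  simp only [mul_pow, ← Finset.mul_sum]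
  exact mul_le_mul_of_nonneg_left
    (sum_le_hasSum s (fun i _ => sq_nonneg _) (hasSum_norm_sq hx)) (by positivity)

lemma norm_vc_mul_right {x y : Op H} (hx : x ∈ S.fin) (hy : y ∈ S.M) :
    ‖S.vc (x * y)‖ ≤ ‖S.vc x‖ * ‖y‖ := by
  rw [← norm_vc_star (S.mul_mem_fin_right hx hy), star_mul, mul_comm, ← norm_vc_star hx,
    ← norm_star y]
  exact norm_vc_mul_left (star_mem hy) (S.star_mem_fin hx)

lemma vc_injective {x : Op H} (hx : x ∈ S.fin) (h : S.vc x = 0) : x = 0 :=
  S.separating x hx.1 fun i => by rw [← vc_apply hx, h]; rfl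

lemma inner_vc {x y : Op H} (hx : x ∈ S.fin) (hy : y ∈ S.fin) :
    HasSum (fun i => ⟪x (S.vec i), y (S.vec i)⟫_ℂ) ⟪S.vc x, S.vc y⟫_ℂ := by
  simpa [vc_apply hx, vc_apply hy] using lp.hasSum_inner (S.vc x) (S.vc y)

/-- Left multiplication moves across the inner product. -/
lemma inner_vc_mul_left {a x y : Op H} (ha : a ∈ S.M) (hx : x ∈ S.fin) (hy : y ∈ S.fin) :
    ⟪S.vc (a * x), S.vc y⟫_ℂ = ⟪S.vc x, S.vc (star a * y)⟫_ℂ := by
  refine (inner_vc (S.mul_mem_fin_left ha hx) hy).unique ?_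
  refine (inner_vc hx (S.mul_mem_fin_left (star_mem ha) hy)).congr_fun fun i => ?_
  simp [ContinuousLinearMap.star_eq_adjoint, ContinuousLinearMap.adjoint_inner_right]

/-- The trace property, polarised. -/
lemma inner_vc_star {x y : Op H} (hx : x ∈ S.fin) (hy : y ∈ S.fin) :
    ⟪S.vc (star x), S.vc (star y)⟫_ℂ = ⟪S.vc y, S.vc x⟫_ℂ := by
  have hsx := S.star_mem_fin hx
  have hsy := S.star_mem_fin hy
  have hr : ∀ {u v : Op H}, u ∈ S.fin → v ∈ S.fin →
      RCLike.re ⟪S.vc (star u), S.vc (star v)⟫_ℂ = RCLike.re ⟪S.vc v, S.vc u⟫_ℂ := by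
    intro u v hu hv
    have h := norm_vc_star (add_mem hu hv)
    rw [star_add, vc_add (S.star_mem_fin hu) (S.star_mem_fin hv), vc_add hu hv] at h
    have h1 := norm_add_sq (𝕜 := ℂ) (S.vc (star u)) (S.vc (star v))
    have h2 := norm_add_sq (𝕜 := ℂ) (S.vc u) (S.vc v)
    rw [h, norm_vc_star hu, norm_vc_star hv] at h1
    rw [← inner_conj_symm (S.vc v), RCLike.conj_re]
    linarith
  refine Complex.ext (hr hx hy) ?_
  have h := hr (S.fin.smul_mem Complex.I hx) hy
  rw [star_smul, vc_smul hsx, vc_smul hx, inner_smul_left, inner_smul_right] at h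
  simp at h
  linarith

/-- Right multiplication moves across the inner product. -/
lemma inner_vc_mul_right {a x y : Op H} (ha : a ∈ S.M) (hx : x ∈ S.fin) (hy : y ∈ S.fin) :
    ⟪S.vc (x * a), S.vc y⟫_ℂ = ⟪S.vc x, S.vc (y * star a)⟫_ℂ := by
  have h1 := inner_vc_star (S.star_mem_fin (S.mul_mem_fin_right hx ha)) (S.star_mem_fin hy)
  have h2 := inner_vc_star (S.star_mem_fin hx)
    (S.star_mem_fin (S.mul_mem_fin_right hy (star_mem ha)))
  simp only [star_star] at h1 h2
  rw [h1, h2, star_mul, star_mul, star_star,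
    ← inner_conj_symm, ← inner_conj_symm (S.vc (a * star y)),
    inner_vc_mul_left (star_mem ha) (S.star_mem_fin hx) (S.star_mem_fin hy), star_star]

end Semi

end Vale.Agent.P078.Sf
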