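import Vale.Agent.P078.Sf.Colour

/-!
# One random colouring at the cells of a partition
-/

open scoped ComplexOrder InnerProductSpace

noncomputable section

namespace Vale.Agent.P078.Sf

universe u

variable {H : Type u} [NormedAddCommGroup H] [InnerProductSpace ℂ H] [CompleteSpace H]
  {S : Semi H} {m r : ℕ}

/-- A compression written as a product in two orders. -/
lemma norm_sq_compress {q a b y : Op H} (hq : q ∈ S.fin) (hqp : IsStarProjection q)
    (haM : a ∈ S.M) (ha : star a = a) (hbM : b ∈ S.M) (hb : star b = b) (hy : y ∈ S.M) :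
    ‖S.vc (q * a * y * b * q)‖ ^ 2 =
      RCLike.re ⟪S.vc (y * (b * q * b)), S.vc (a * q * a * y)⟫_ℂ := by
  have hqa : q * a ∈ S.fin := S.mul_mem_fin_right hq haM
  have hbq : b * q ∈ S.fin := S.mul_mem_fin_left hbM hq
  have hX : q * a * y * b * q ∈ S.fin := by
    simpa only [mul_assoc] using S.mul_mem_fin_left hq.1 (S.mul_mem_fin_left haM
      (S.mul_mem_fin_left hy hbq))
  have hW : y * (b * q) ∈ S.fin := S.mul_mem_fin_left hy hbq
  have hZ : a * q * a * y ∈ S.fin :=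
    S.mul_mem_fin_right (S.mul_mem_fin_right (S.mul_mem_fin_left haM hq) haM) hy
  rw [← inner_self_eq_norm_sq (𝕜 := ℂ)]
  congr 1
  calc ⟪S.vc (q * a * y * b * q), S.vc (q * a * y * b * q)⟫_ℂ
      = ⟪S.vc (q * a * (y * (b * q))), S.vc (q * a * y * b * q)⟫_ℂ := by simp only [mul_assoc]
    _ = ⟪S.vc (y * (b * q)), S.vc (star (q * a) * (q * a * y * b * q))⟫_ℂ :=
        Semi.inner_vc_mul_left hqa.1 hW hX
    _ = ⟪S.vc (y * (b * q)), S.vc (a * q * a * y * star (q * b))⟫_ℂ := by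
        rw [star_mul, star_mul, ha, hb, hqp.isSelfAdjoint.star_eq]
        simp only [← mul_assoc]
        rw [mul_assoc a q q, hqp.isIdempotentElem.eq]
    _ = ⟪S.vc (y * (b * q) * (q * b)), S.vc (a * q * a * y)⟫_ℂ :=
        (Semi.inner_vc_mul_right (mul_mem hq.1 hbM) hW hZ).symm
    _ = _ := by
        simp only [← mul_assoc]
        rw [mul_assoc (y * b) q q, hqp.isIdempotentElem.eq]

lemma re_inner_compress_le {a b y : Op H} (ha : a ∈ S.fin) (hb : b ∈ S.fin) (hy : y ∈ S.M) :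
    RCLike.re ⟪S.vc (y * b), S.vc (a * y)⟫_ℂ ≤ ‖y‖ ^ 2 * (‖S.vc a‖ * ‖S.vc b‖) := by
  refine (RCLike.re_le_norm _).trans ((norm_inner_le_norm _ _).trans ?_)
  refine (mul_le_mul (Semi.norm_vc_mul_left hy hb) (Semi.norm_vc_mul_right ha hy) (norm_nonneg _)
    (by positivity)).trans (le_of_eq ?_)
  ring

variable [NeZero r] (P₀ : Part S) (P : Fin m → Part S)

/-- The centred colour on one cell. -/
def cellDev (c : Fin r) (K : Fin P₀.n) (ω : Sample P r) : Op H := P₀.p K * dev P ω c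

/-- The pieces of colour `c`. -/
def pieces (ξ : Fin P₀.n → Sample P r) (c : Fin r) : Op H :=
  ∑ K, P₀.p K * colour P (ξ K) c

omit [NeZero r] in
lemma pieces_mem (ξ : Fin P₀.n → Sample P r) (c : Fin r) : pieces P₀ P ξ c ∈ S.A :=
  sum_mem fun K _ => mul_mem (P₀.mem K) (colour_mem P _ c)

omit [NeZero r] in
lemma pieces_mul (ξ : Fin P₀.n → Sample P r) (c d : Fin r) :
    pieces P₀ P ξ c * pieces P₀ P ξ d = if c = d then pieces P₀ P ξ c else 0 := by
  rw [pieces, pieces, Finset.sum_mul]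
  have h : ∀ K, P₀.p K * colour P (ξ K) c * ∑ L, P₀.p L * colour P (ξ L) d =
      P₀.p K * (colour P (ξ K) c * colour P (ξ K) d) := fun K => by
    rw [Finset.mul_sum, Finset.sum_eq_single K (fun L _ hL => ?_) (by simp)]
    · rw [mul_assoc, ← mul_assoc (colour P (ξ K) c), ← P₀.comm_A K (colour_mem P _ c), mul_assoc,
        ← mul_assoc (P₀.p K), P₀.mul_self]
    · rw [mul_assoc, ← mul_assoc (colour P (ξ K) c), ← P₀.comm_A L (colour_mem P _ c),
        mul_assoc (P₀.p L), ← mul_assoc, P₀.orth K L (Ne.symm hL), zero_mul]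
  simp only [h, colour_mul]
  split_ifs <;> simp

omit [NeZero r] in
lemma pieces_proj (ξ : Fin P₀.n → Sample P r) (c : Fin r) :
    IsStarProjection (pieces P₀ P ξ c) := by
  refine ⟨show _ * _ = _ by rw [pieces_mul, if_pos rfl], isSelfAdjoint_sum _ fun K _ => ?_⟩
  exact ((P₀.proj K).mul (colour_proj P _ c) (P₀.comm_A K (colour_mem P _ c))).isSelfAdjoint

omit [NeZero r] in
lemma sum_pieces (ξ : Fin P₀.n → Sample P r) : ∑ c, pieces P₀ P ξ c = 1 := by
  simp only [pieces]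
  rw [Finset.sum_comm, Finset.sum_congr rfl fun K _ => by rw [← Finset.mul_sum, sum_colour, mul_one],
    P₀.sum_eq]

omit [NeZero r] in
lemma pieces_eq (ξ : Fin P₀.n → Sample P r) (c : Fin r) :
    pieces P₀ P ξ c = (∑ K, cellDev P₀ P c K (ξ K)) + (1 / (r : ℝ)) • (1 : Op H) := by
  simp only [pieces, cellDev, dev, mul_sub, mul_smul_comm, mul_one, Finset.sum_sub_distrib,
    ← Finset.smul_sum, P₀.sum_eq, sub_add_cancel]

omit [NeZero r] in
lemma cellDev_mem (c : Fin r) (K : Fin P₀.n) (ω : Sample P r) : cellDev P₀ P c K ω ∈ S.M :=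
  S.le _ (mul_mem (P₀.mem K) (dev_mem P ω c))

omit [NeZero r] in
lemma star_cellDev (c : Fin r) (K : Fin P₀.n) (ω : Sample P r) :
    star (cellDev P₀ P c K ω) = cellDev P₀ P c K ω := by
  rw [cellDev, star_mul, star_dev, P₀.star_p, P₀.comm_A K (dev_mem P ω c)]

omit [NeZero r] in
lemma cellDev_conj (c : Fin r) (K : Fin P₀.n) (ω : Sample P r) (z : Op H) :
    cellDev P₀ P c K ω * z * cellDev P₀ P c K ω =
      P₀.p K * (dev P ω c * z * dev P ω c) * P₀.p K := by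
  simp only [cellDev]
  conv_lhs => arg 2; rw [P₀.comm_A K (dev_mem P ω c)]
  simp only [mul_assoc]

lemma sum_cellDev (c : Fin r) (K : Fin P₀.n) : ∑ ω : Sample P r, cellDev P₀ P c K ω = 0 := by
  simp only [cellDev, ← Finset.mul_sum, sum_dev, mul_zero]

omit [NeZero r] in
lemma dev_conj_pinch (ω : Sample P r) (c : Fin r) (q : Op H) :
    P₀.pinch (dev P ω c * q * dev P ω c) = dev P ω c * P₀.pinch q * dev P ω c := by
  simp only [Part.pinch, Finset.mul_sum, Finset.sum_mul]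
  refine Finset.sum_congr rfl fun K _ => ?_
  simp only [← mul_assoc]
  rw [P₀.comm_A K (dev_mem P ω c)]
  simp only [mul_assoc]
  rw [P₀.comm_A K (dev_mem P ω c)]

/-- The mean of the quadratic part. -/
def meanPart (r : ℕ) (y : Op H) : Op H :=
  ((1 / (r : ℝ) - 1 / (r : ℝ) ^ 2) / m) • ∑ j, P₀.pinch ((P j).pinch y)

/-- The error at one colour. -/
def errPart (q y : Op H) (ξ : Fin P₀.n → Sample P r) (c : Fin r) : Op H :=
  q * pieces P₀ P ξ c * y * pieces P₀ P ξ c * q - (1 / (r : ℝ) ^ 2) • (q * y * q) -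
    q * meanPart P₀ P r y * q

lemma sum_cellDev_conj (c : Fin r) (K : Fin P₀.n) (q y : Op H) :
    ∑ ω : Sample P r, q * cellDev P₀ P c K ω * y * cellDev P₀ P c K ω * q =
      (Fintype.card (Sample P r) : ℝ) • (q * (((1 / (r : ℝ) - 1 / (r : ℝ) ^ 2) / m) •
        ∑ j, P₀.p K * (P j).pinch y * P₀.p K) * q) := by
  have : ∀ ω : Sample P r, q * cellDev P₀ P c K ω * y * cellDev P₀ P c K ω * q =
      q * (P₀.p K * (dev P ω c * y * dev P ω c) * P₀.p K) * q := fun ω => by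
    rw [← cellDev_conj]
    simp only [mul_assoc]
  simp only [this, ← Finset.mul_sum, ← Finset.sum_mul, sum_dev_conj, mul_smul_comm, smul_mul_assoc,
    smul_smul, ← Finset.sum_mul, ← Finset.mul_sum]
  congr 1
  ring

omit [NeZero r] in
/-- The error splits into two linear parts, the diagonal and the pairs. -/
lemma err_eq (q y : Op H) (ξ : Fin P₀.n → Sample P r) (c : Fin r) :
    errPart P₀ P q y ξ c =
      (1 / (r : ℝ)) • ((∑ K, q * cellDev P₀ P c K (ξ K) * y * q) +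
        ∑ K, q * y * cellDev P₀ P c K (ξ K) * q) +
      (∑ K, (q * cellDev P₀ P c K (ξ K) * y * cellDev P₀ P c K (ξ K) * q -
        q * (((1 / (r : ℝ) - 1 / (r : ℝ) ^ 2) / m) •
          ∑ j, P₀.p K * (P j).pinch y * P₀.p K) * q)) +
      ∑ p ∈ (Finset.univ : Finset (Fin P₀.n)).offDiag,
        q * cellDev P₀ P c p.1 (ξ p.1) * y * cellDev P₀ P c p.2 (ξ p.2) * q := by
  classical
  set Y : Fin P₀.n → Op H := fun K => cellDev P₀ P c K (ξ K)
  have hpair : (∑ K, q * Y K * y * Y K * q) +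
      ∑ p ∈ (Finset.univ : Finset (Fin P₀.n)).offDiag, q * Y p.1 * y * Y p.2 * q =
      q * (∑ K, Y K) * y * (∑ K, Y K) * q := by
    rw [← Finset.sum_diag Finset.univ (fun p : Fin P₀.n × Fin P₀.n => q * Y p.1 * y * Y p.2 * q),
      ← Finset.sum_union (Finset.disjoint_diag_offDiag _), Finset.diag_union_offDiag,
      Finset.sum_product]
    simp only [Finset.mul_sum, Finset.sum_mul]
    exact Finset.sum_comm
  have hmean : ∑ K, q * (((1 / (r : ℝ) - 1 / (r : ℝ) ^ 2) / m) •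
      ∑ j, P₀.p K * (P j).pinch y * P₀.p K) * q = q * meanPart P₀ P r y * q := by
    rw [← Finset.sum_mul, ← Finset.mul_sum, ← Finset.smul_sum, Finset.sum_comm]
    rfl
  have h1 : ∑ K, q * Y K * y * q = q * (∑ K, Y K) * y * q := by
    simp only [Finset.mul_sum, Finset.sum_mul]
  have h2 : ∑ K, q * y * Y K * q = q * y * (∑ K, Y K) * q := by
    simp only [Finset.mul_sum, Finset.sum_mul]
  rw [Finset.sum_sub_distrib, hmean, errPart, pieces_eq, h1, h2]
  rw [← sub_eq_zero]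
  calc _ = q * (∑ K, Y K) * y * (∑ K, Y K) * q - ((∑ K, q * Y K * y * Y K * q) +
        ∑ p ∈ (Finset.univ : Finset (Fin P₀.n)).offDiag, q * Y p.1 * y * Y p.2 * q) := by
        simp only [mul_add, add_mul, smul_mul_assoc, mul_smul_comm, mul_one, smul_add, smul_smul,
          Y, sq]
        match_scalars <;> field_simp <;> ring
    _ = 0 := by rw [hpair, sub_self]

variable {q y : Op H} {b κ : ℝ}

omit [NeZero r] in
lemma sum_conj_mem_fin (hq : q ∈ S.fin) (c : Fin r) :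
    ∑ ω : Sample P r, dev P ω c * P₀.pinch q * dev P ω c ∈ S.fin :=
  sum_mem fun ω _ => S.mul_mem_fin_right
    (S.mul_mem_fin_left (S.le _ (dev_mem P ω c)) (P₀.pinch_mem_fin hq)) (S.le _ (dev_mem P ω c))

lemma norm_dev_conj_le (hq : q ∈ S.fin) (hκ : ‖S.vc (P₀.pinch q)‖ ≤ κ) (ω : Sample P r)
    (c : Fin r) : ‖S.vc (dev P ω c * P₀.pinch q * dev P ω c)‖ ≤ 4 * κ := by
  have hM := S.le _ (dev_mem P ω c)
  have hd := norm_dev_le P ω c
  refine (Semi.norm_vc_mul_right (S.mul_mem_fin_left hM (P₀.pinch_mem_fin hq)) hM).trans ?_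
  refine (mul_le_mul ((Semi.norm_vc_mul_left hM (P₀.pinch_mem_fin hq)).trans
    (mul_le_mul hd hκ (norm_nonneg _) zero_le_two)) hd (norm_nonneg _)
    (by linarith [norm_nonneg (S.vc (P₀.pinch q))])).trans (le_of_eq ?_)
  ring

lemma norm_sum_conj_le (hq : q ∈ S.fin) (hκ : ‖S.vc (P₀.pinch q)‖ ≤ κ) (c : Fin r) :
    ‖S.vc (∑ ω : Sample P r, dev P ω c * P₀.pinch q * dev P ω c)‖ ≤
      Fintype.card (Sample P r) * (4 * κ) := by
  rw [Semi.vc_sum _ _ fun ω _ => S.mul_mem_fin_right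
    (S.mul_mem_fin_left (S.le _ (dev_mem P ω c)) (P₀.pinch_mem_fin hq)) (S.le _ (dev_mem P ω c))]
  refine (norm_sum_le _ _).trans ((Finset.sum_le_card_nsmul _ _ _ fun ω _ =>
    norm_dev_conj_le P₀ P hq hκ ω c).trans ?_)
  simp [nsmul_eq_mul]

omit [NeZero r] in
lemma conj_mem_fin (hq : q ∈ S.fin) (c : Fin r) (K : Fin P₀.n) (ω : Sample P r) :
    cellDev P₀ P c K ω * q * cellDev P₀ P c K ω ∈ S.fin :=
  S.mul_mem_fin_right (S.mul_mem_fin_left (cellDev_mem P₀ P c K ω) hq) (cellDev_mem P₀ P c K ω)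

omit [NeZero r] in
lemma sum_sum_conj (c : Fin r) :
    ∑ K, ∑ ω : Sample P r, cellDev P₀ P c K ω * q * cellDev P₀ P c K ω =
      ∑ ω : Sample P r, dev P ω c * P₀.pinch q * dev P ω c := by
  rw [Finset.sum_comm]
  refine Finset.sum_congr rfl fun ω _ => ?_
  simp only [cellDev_conj, ← dev_conj_pinch]
  rfl

variable [Nonempty (Fin m)]

lemma linear_bound (hq : q ∈ S.fin) (hqp : IsStarProjection q) (hy : y ∈ S.M) (hb : ‖y‖ ≤ b)
    (hκ : ‖S.vc (P₀.pinch q)‖ ≤ κ) (c : Fin r) :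
    ∑ ξ : Fin P₀.n → Sample P r, ‖S.vc (∑ K, q * cellDev P₀ P c K (ξ K) * y * q)‖ ^ 2 ≤
      Fintype.card (Fin P₀.n → Sample P r) * (4 * b ^ 2 * ‖S.vc q‖ * κ) := by
  set g : Fin P₀.n → Sample P r → S.Big := fun K ω => S.vc (q * cellDev P₀ P c K ω * y * q)
  have hf : ∀ K ω, q * cellDev P₀ P c K ω * y * q ∈ S.fin := fun K ω =>
    S.mul_mem_fin_left (mul_mem (mul_mem hq.1 (cellDev_mem P₀ P c K ω)) hy) hq
  have hg : ∀ K, ∑ ω, g K ω = 0 := fun K => by
    rw [← Semi.vc_sum _ _ fun ω _ => hf K ω, ← Finset.sum_mul, ← Finset.sum_mul, ← Finset.mul_sum,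
      sum_cellDev, mul_zero, zero_mul, zero_mul, Semi.vc_zero]
  calc _ = ∑ ξ : Fin P₀.n → Sample P r, ‖∑ K, g K (ξ K)‖ ^ 2 := by
        simp only [g, ← Semi.vc_sum _ _ fun K _ => hf K _]
    _ = _ := sum_sq_single g hg
    _ = ∑ K, ∑ ξ : Fin P₀.n → Sample P r, ‖g K (ξ K)‖ ^ 2 := Finset.sum_comm
    _ ≤ _ := ?_
  have hN : (0 : ℝ) < Fintype.card (Sample P r) := Nat.cast_pos.2 Fintype.card_pos
  refine le_of_mul_le_mul_left ?_ hN
  rw [Finset.mul_sum, Finset.sum_congr rfl fun K _ => by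
    rw [← nsmul_eq_mul, card_nsmul_sum_eval (fun ω => ‖g K ω‖ ^ 2) K, nsmul_eq_mul], ← Finset.mul_sum,
    mul_left_comm]
  refine mul_le_mul_of_nonneg_left ?_ (Nat.cast_nonneg _)
  have e : ∀ K ω, ‖g K ω‖ ^ 2 = RCLike.re
      ⟪S.vc (y * q), S.vc (cellDev P₀ P c K ω * q * cellDev P₀ P c K ω * y)⟫_ℂ := fun K ω => by
    have := norm_sq_compress hq hqp (cellDev_mem P₀ P c K ω) (star_cellDev P₀ P c K ω)
      (one_mem S.M) (star_one _) hy
    simpa using this
  simp only [e, ← map_sum, ← inner_sum]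
  rw [← Finset.sum_congr rfl fun K _ =>
      Semi.vc_sum _ _ fun ω _ => S.mul_mem_fin_right (conj_mem_fin P₀ P hq c K ω) hy,
    ← Semi.vc_sum _ _ fun K _ => sum_mem fun ω _ =>
      S.mul_mem_fin_right (conj_mem_fin P₀ P hq c K ω) hy]
  simp only [← Finset.sum_mul, sum_sum_conj]
  refine (re_inner_compress_le (sum_conj_mem_fin P₀ P hq c) hq hy).trans ?_
  have h1 := norm_sum_conj_le P₀ P hq hκ c
  have h2 := pow_le_pow_left₀ (norm_nonneg _) hb 2
  calc _ ≤ b ^ 2 * (Fintype.card (Sample P r) * (4 * κ) * ‖S.vc q‖) :=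
        mul_le_mul h2 (mul_le_mul_of_nonneg_right h1 (norm_nonneg _)) (by positivity) (sq_nonneg _)
    _ = _ := by ring

lemma diag_bound (hq : q ∈ S.fin) (hqp : IsStarProjection q) (hy : y ∈ S.M) (hb : ‖y‖ ≤ b)
    (hκ : ‖S.vc (P₀.pinch q)‖ ≤ κ) (c : Fin r) :
    ∑ ξ : Fin P₀.n → Sample P r, ‖S.vc (∑ K, (q * cellDev P₀ P c K (ξ K) * y *
      cellDev P₀ P c K (ξ K) * q - q * (((1 / (r : ℝ) - 1 / (r : ℝ) ^ 2) / m) •
        ∑ j, P₀.p K * (P j).pinch y * P₀.p K) * q))‖ ^ 2 ≤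
      Fintype.card (Fin P₀.n → Sample P r) * (16 * b ^ 2 * κ ^ 2) := by
  set μ : Fin P₀.n → Op H := fun K => q * (((1 / (r : ℝ) - 1 / (r : ℝ) ^ 2) / m) •
    ∑ j, P₀.p K * (P j).pinch y * P₀.p K) * q
  have hμ : ∀ K, μ K ∈ S.fin := fun K => by
    refine S.mul_mem_fin_left (mul_mem hq.1 ?_) hq
    rw [← Complex.coe_smul ((1 / (r : ℝ) - 1 / (r : ℝ) ^ 2) / m)]
    exact S.M.toStarSubalgebra.smul_mem (sum_mem fun j _ =>
      mul_mem (mul_mem (P₀.mem_M K) ((P j).pinch_mem hy)) (P₀.mem_M K)) _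
  have hf : ∀ K ω, q * cellDev P₀ P c K ω * y * cellDev P₀ P c K ω * q ∈ S.fin := fun K ω =>
    S.mul_mem_fin_left (mul_mem (mul_mem (mul_mem hq.1 (cellDev_mem P₀ P c K ω)) hy)
      (cellDev_mem P₀ P c K ω)) hq
  set g : Fin P₀.n → Sample P r → S.Big :=
    fun K ω => S.vc (q * cellDev P₀ P c K ω * y * cellDev P₀ P c K ω * q) - S.vc (μ K) with hgdef
  have hsum : ∀ K, ∑ ω, S.vc (q * cellDev P₀ P c K ω * y * cellDev P₀ P c K ω * q) =
      Fintype.card (Sample P r) • S.vc (μ K) := fun K => by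
    rw [← Semi.vc_sum _ _ fun ω _ => hf K ω, sum_cellDev_conj, ← Complex.coe_smul,
      Semi.vc_smul (hμ K), Complex.ofReal_natCast, Nat.cast_smul_eq_nsmul]
  have hg : ∀ K, ∑ ω, g K ω = 0 := fun K => by
    rw [Finset.sum_sub_distrib, hsum, Finset.sum_const, Finset.card_univ, sub_self]
  calc _ = ∑ ξ : Fin P₀.n → Sample P r, ‖∑ K, g K (ξ K)‖ ^ 2 := by
        refine Finset.sum_congr rfl fun ξ _ => ?_
        rw [Semi.vc_sum _ _ fun K _ => sub_mem (hf K _) (hμ K)]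
        simp only [hgdef]
        rw [Finset.sum_congr rfl fun K _ => Semi.vc_sub (hf K _) (hμ K)]
    _ = _ := sum_sq_single g hg
    _ = ∑ K, ∑ ξ : Fin P₀.n → Sample P r, ‖g K (ξ K)‖ ^ 2 := Finset.sum_comm
    _ ≤ _ := ?_
  have hN : (0 : ℝ) < Fintype.card (Sample P r) := Nat.cast_pos.2 Fintype.card_pos
  refine le_of_mul_le_mul_left ?_ hN
  rw [Finset.mul_sum, Finset.sum_congr rfl fun K _ => by
    rw [← nsmul_eq_mul, card_nsmul_sum_eval (fun ω => ‖g K ω‖ ^ 2) K, nsmul_eq_mul], ← Finset.mul_sum,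
    mul_left_comm]
  refine mul_le_mul_of_nonneg_left ?_ (Nat.cast_nonneg _)
  have hK : ∀ K, ∑ ω, ‖g K ω‖ ^ 2 ≤
      ∑ ω, b ^ 2 * ‖S.vc (cellDev P₀ P c K ω * q * cellDev P₀ P c K ω)‖ ^ 2 := fun K => by
    refine (sum_sq_sub_mean _ _ (hsum K)).trans (Finset.sum_le_sum fun ω _ => ?_)
    rw [norm_sq_compress hq hqp (cellDev_mem P₀ P c K ω) (star_cellDev P₀ P c K ω)
      (cellDev_mem P₀ P c K ω) (star_cellDev P₀ P c K ω) hy]
    refine (re_inner_compress_le (conj_mem_fin P₀ P hq c K ω) (conj_mem_fin P₀ P hq c K ω) hy).trans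
      ?_
    rw [← sq]
    exact mul_le_mul_of_nonneg_right (pow_le_pow_left₀ (norm_nonneg _) hb 2) (sq_nonneg _)
  refine (Finset.sum_le_sum fun K _ => hK K).trans ?_
  · have hω : ∀ ω : Sample P r,
        ∑ K, b ^ 2 * ‖S.vc (cellDev P₀ P c K ω * q * cellDev P₀ P c K ω)‖ ^ 2 ≤
          b ^ 2 * (4 * κ) ^ 2 := fun ω => by
      have hM := S.le _ (dev_mem P ω c)
      simp only [cellDev_conj]
      rw [← Finset.mul_sum, Part.sum_norm_vc_sq
        (S.mul_mem_fin_right (S.mul_mem_fin_left hM hq) hM), dev_conj_pinch]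
      exact mul_le_mul_of_nonneg_left
        (pow_le_pow_left₀ (norm_nonneg _) (norm_dev_conj_le P₀ P hq hκ ω c) 2) (sq_nonneg _)
    rw [Finset.sum_comm]
    refine (Finset.sum_le_sum fun ω _ => hω ω).trans (le_of_eq ?_)
    rw [Finset.sum_const, Finset.card_univ, nsmul_eq_mul]
    ring

lemma pair_bound (hq : q ∈ S.fin) (hqp : IsStarProjection q) (hy : y ∈ S.M) (hb : ‖y‖ ≤ b)
    (hκ : ‖S.vc (P₀.pinch q)‖ ≤ κ) (c : Fin r) :
    ∑ ξ : Fin P₀.n → Sample P r, ‖S.vc (∑ p ∈ (Finset.univ : Finset (Fin P₀.n)).offDiag,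
      q * cellDev P₀ P c p.1 (ξ p.1) * y * cellDev P₀ P c p.2 (ξ p.2) * q)‖ ^ 2 ≤
      Fintype.card (Fin P₀.n → Sample P r) * (32 * b ^ 2 * κ ^ 2) := by
  set Y := cellDev P₀ P c
  set T : Fin P₀.n → Fin P₀.n → Sample P r → Sample P r → S.Big :=
    fun K L a a' => S.vc (q * Y K a * y * Y L a' * q)
  have hf : ∀ K L a a', q * Y K a * y * Y L a' * q ∈ S.fin := fun K L a a' =>
    S.mul_mem_fin_left (mul_mem (mul_mem (mul_mem hq.1 (cellDev_mem P₀ P c K a)) hy)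
      (cellDev_mem P₀ P c L a')) hq
  have h1 : ∀ K L a', ∑ a, T K L a a' = 0 := fun K L a' => by
    simp only [T, ← Semi.vc_sum _ _ fun a _ => hf K L a a', ← Finset.sum_mul, ← Finset.mul_sum, Y,
      sum_cellDev, mul_zero, zero_mul, Semi.vc_zero]
  have h2 : ∀ K L a, ∑ a', T K L a a' = 0 := fun K L a => by
    simp only [T, ← Semi.vc_sum _ _ fun a' _ => hf K L a a', ← Finset.sum_mul, ← Finset.mul_sum, Y,
      sum_cellDev, mul_zero, zero_mul, Semi.vc_zero]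
  calc _ = ∑ ξ : Fin P₀.n → Sample P r, ‖∑ p ∈ (Finset.univ : Finset (Fin P₀.n)).offDiag,
        T p.1 p.2 (ξ p.1) (ξ p.2)‖ ^ 2 := by
        refine Finset.sum_congr rfl fun ξ _ => ?_
        rw [Semi.vc_sum _ _ fun p _ => hf p.1 p.2 _ _]
    _ ≤ _ := sum_sq_pairs T h1 h2
    _ ≤ 2 * ((Fintype.card (Fin P₀.n → Sample P r) : ℝ) * (16 * b ^ 2 * κ ^ 2)) := ?_
    _ = _ := by ring
  refine mul_le_mul_of_nonneg_left ?_ zero_le_two
  rw [Finset.sum_comm]
  have hN : (0 : ℝ) < Fintype.card (Sample P r) := Nat.cast_pos.2 Fintype.card_pos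
  refine le_of_mul_le_mul_left (le_of_mul_le_mul_left ?_ hN) hN
  rw [Finset.mul_sum, Finset.mul_sum, Finset.sum_congr rfl fun p hp => by
    rw [← nsmul_eq_mul, ← nsmul_eq_mul, card_nsmul_sum_eval₂ (fun a a' => ‖T p.1 p.2 a a'‖ ^ 2)
      (Finset.mem_offDiag.1 hp).2.2, nsmul_eq_mul], ← Finset.mul_sum,
    mul_left_comm (Fintype.card (Sample P r) : ℝ) (Fintype.card (Fin P₀.n → Sample P r) : ℝ),
    mul_left_comm (Fintype.card (Sample P r) : ℝ) (Fintype.card (Fin P₀.n → Sample P r) : ℝ)]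
  refine mul_le_mul_of_nonneg_left ?_ (Nat.cast_nonneg _)
  refine (Finset.sum_le_sum_of_subset_of_nonneg (Finset.subset_univ _)
    fun p _ _ => Finset.sum_nonneg fun a _ => Finset.sum_nonneg fun a' _ => sq_nonneg _).trans ?_
  set G : Op H := ∑ K, ∑ a : Sample P r, Y K a * q * Y K a with hG
  have hG' : G = ∑ ω : Sample P r, dev P ω c * P₀.pinch q * dev P ω c := sum_sum_conj P₀ P c
  have e : ∑ p : Fin P₀.n × Fin P₀.n, ∑ a : Sample P r, ∑ a' : Sample P r,
      ‖T p.1 p.2 a a'‖ ^ 2 = RCLike.re ⟪S.vc (y * G), S.vc (G * y)⟫_ℂ := by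
    have hin : ∀ K a, Y K a * q * Y K a ∈ S.fin := fun K a => conj_mem_fin P₀ P hq c K a
    have el : S.vc (y * G) = ∑ L, ∑ a', S.vc (y * (Y L a' * q * Y L a')) := by
      simp only [hG, Finset.mul_sum]
      rw [Semi.vc_sum _ _ fun L _ => sum_mem fun a' _ => S.mul_mem_fin_left hy (hin L a')]
      exact Finset.sum_congr rfl fun L _ => Semi.vc_sum _ _ fun a' _ =>
        S.mul_mem_fin_left hy (hin L a')
    have er : S.vc (G * y) = ∑ K, ∑ a, S.vc (Y K a * q * Y K a * y) := by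
      simp only [hG, Finset.sum_mul]
      rw [Semi.vc_sum _ _ fun K _ => sum_mem fun a _ => S.mul_mem_fin_right (hin K a) hy]
      exact Finset.sum_congr rfl fun K _ => Semi.vc_sum _ _ fun a _ =>
        S.mul_mem_fin_right (hin K a) hy
    rw [el, er, Fintype.sum_prod_type]
    simp only [inner_sum, sum_inner, map_sum, T]
    refine Finset.sum_congr rfl fun K _ => ?_
    rw [Finset.sum_comm]
    refine Finset.sum_congr rfl fun a _ => Finset.sum_congr rfl fun L _ =>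
      Finset.sum_congr rfl fun a' _ => ?_
    exact norm_sq_compress hq hqp (cellDev_mem P₀ P c K a) (star_cellDev P₀ P c K a)
      (cellDev_mem P₀ P c L a') (star_cellDev P₀ P c L a') hy
  rw [e, hG']
  refine (re_inner_compress_le (sum_conj_mem_fin P₀ P hq c) (sum_conj_mem_fin P₀ P hq c) hy).trans ?_
  have h3 := norm_sum_conj_le P₀ P hq hκ c
  refine (mul_le_mul (pow_le_pow_left₀ (norm_nonneg _) hb 2)
    (mul_le_mul h3 h3 (norm_nonneg _) ((norm_nonneg _).trans h3)) (by positivity)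
    (sq_nonneg _)).trans (le_of_eq ?_)
  ring

lemma norm_sq_add₃_le {E : Type*} [SeminormedAddCommGroup E] (a b c : E) :
    ‖a + b + c‖ ^ 2 ≤ 3 * (‖a‖ ^ 2 + ‖b‖ ^ 2 + ‖c‖ ^ 2) := by
  have h := pow_le_pow_left₀ (norm_nonneg _) (norm_add₃_le (a := a) (b := b) (c := c)) 2
  nlinarith [sq_nonneg (‖a‖ - ‖b‖), sq_nonneg (‖a‖ - ‖c‖), sq_nonneg (‖b‖ - ‖c‖)]

/-- The mean square of the error is small with the pinched projection. -/
theorem err_bound (hq : q ∈ S.fin) (hqp : IsStarProjection q) (hy : y ∈ S.M) (hys : IsSelfAdjoint y)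
    (hb : ‖y‖ ≤ b) (hκ : ‖S.vc (P₀.pinch q)‖ ≤ κ) (c : Fin r) :
    ∑ ξ : Fin P₀.n → Sample P r, ‖S.vc (errPart P₀ P q y ξ c)‖ ^ 2 ≤
      Fintype.card (Fin P₀.n → Sample P r) * (48 * b ^ 2 * κ * (‖S.vc q‖ + 3 * κ)) := by
  have hr : (1 : ℝ) ≤ r := by exact_mod_cast NeZero.one_le
  have hstar : ∀ ξ : Fin P₀.n → Sample P r, ∑ K, q * y * cellDev P₀ P c K (ξ K) * q =
      star (∑ K, q * cellDev P₀ P c K (ξ K) * y * q) := fun ξ => by
    rw [star_sum]
    refine Finset.sum_congr rfl fun K _ => ?_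
    simp only [star_mul, star_cellDev, hys.star_eq, hqp.isSelfAdjoint.star_eq, mul_assoc]
  have hY : ∀ K ω, cellDev P₀ P c K ω ∈ S.M := fun K ω => cellDev_mem P₀ P c K ω
  have key : ∀ ξ : Fin P₀.n → Sample P r, ‖S.vc (errPart P₀ P q y ξ c)‖ ^ 2 ≤
      12 * ‖S.vc (∑ K, q * cellDev P₀ P c K (ξ K) * y * q)‖ ^ 2 +
      3 * ‖S.vc (∑ K, (q * cellDev P₀ P c K (ξ K) * y * cellDev P₀ P c K (ξ K) * q -
          q * (((1 / (r : ℝ) - 1 / (r : ℝ) ^ 2) / m) •
            ∑ j, P₀.p K * (P j).pinch y * P₀.p K) * q))‖ ^ 2 +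
      3 * ‖S.vc (∑ p ∈ (Finset.univ : Finset (Fin P₀.n)).offDiag,
        q * cellDev P₀ P c p.1 (ξ p.1) * y * cellDev P₀ P c p.2 (ξ p.2) * q)‖ ^ 2 := fun ξ => by
    set L := ∑ K, q * cellDev P₀ P c K (ξ K) * y * q with hL
    have hLf : L ∈ S.fin := sum_mem fun K _ =>
      S.mul_mem_fin_left (mul_mem (mul_mem hq.1 (hY K _)) hy) hq
    have hsum : L + star L ∈ S.fin := add_mem hLf (S.star_mem_fin hLf)
    rw [err_eq, hstar, ← hL, ← Complex.coe_smul,
      Semi.vc_add (add_mem (S.fin.smul_mem _ hsum) (sum_mem fun K _ => ?_)) (sum_mem fun p _ => ?_),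
      Semi.vc_add (S.fin.smul_mem _ hsum) (sum_mem fun K _ => ?_),
      Semi.vc_smul hsum, Semi.vc_add hLf (S.star_mem_fin hLf)]
    · refine (norm_sq_add₃_le _ _ _).trans ?_
      have h1 : ‖((1 / (r : ℝ) : ℝ) : ℂ) • (S.vc L + S.vc (star L))‖ ≤ 2 * ‖S.vc L‖ := by
        rw [norm_smul, Complex.norm_real, Real.norm_eq_abs, abs_of_nonneg (by positivity)]
        refine (mul_le_of_le_one_left (norm_nonneg _) ((div_le_one (by linarith)).2 hr)).trans ?_
        refine (norm_add_le _ _).trans (le_of_eq ?_)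
        rw [Semi.norm_vc_star hLf]
        ring
      have h2 := pow_le_pow_left₀ (norm_nonneg _) h1 2
      nlinarith
    all_goals
      first
        | exact S.mul_mem_fin_left (mul_mem (mul_mem (mul_mem hq.1 (hY _ _)) hy) (hY _ _)) hq
        | refine sub_mem
            (S.mul_mem_fin_left (mul_mem (mul_mem (mul_mem hq.1 (hY _ _)) hy) (hY _ _)) hq)
            (S.mul_mem_fin_left (mul_mem hq.1 ?_) hq)
          rw [← Complex.coe_smul ((1 / (r : ℝ) - 1 / (r : ℝ) ^ 2) / m)]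
          exact S.M.toStarSubalgebra.smul_mem (sum_mem fun j _ =>
            mul_mem (mul_mem (P₀.mem_M K) ((P j).pinch_mem hy)) (P₀.mem_M K)) _
  refine (Finset.sum_le_sum fun ξ _ => key ξ).trans ?_
  simp only [Finset.sum_add_distrib, ← Finset.mul_sum]
  nlinarith [linear_bound P₀ P hq hqp hy hb hκ c, diag_bound P₀ P hq hqp hy hb hκ c,
    pair_bound P₀ P hq hqp hy hb hκ c]

end Vale.Agent.P078.Sf
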