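import Vale.Agent.P078.Sf.Zero
import Mathlib.Analysis.Normed.Group.Tannery

/-!
# Weak limits of pinchings
-/

open Filter Topology
open scoped ComplexOrder InnerProductSpace

noncomputable section

namespace Vale.Agent.P078.Sf

universe u

variable {H : Type u} [NormedAddCommGroup H] [InnerProductSpace ℂ H] [CompleteSpace H]

namespace Semi

variable (S : Semi H)

/-- The filter of finer and finer partitions. -/
def fine : Filter (Part S) := ⨅ P₀ : Part S, 𝓟 {P | P.Refines P₀}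

instance : S.fine.NeBot := by
  have : Nonempty (Part S) := ⟨Part.one S⟩
  refine iInf_neBot_of_directed (fun P Q => ⟨P.inter Q, ?_, ?_⟩)
    fun P => principal_neBot_iff.2 ⟨P, P.refines_refl⟩
  · exact principal_mono.2 fun R hR => hR.trans (Part.inter_refines_left P Q)
  · exact principal_mono.2 fun R hR => hR.trans (Part.inter_refines_right P Q)

/-- An ultrafilter of finer and finer partitions. -/
def ult : Ultrafilter (Part S) := Ultrafilter.of S.fine

lemma eventually_refines (P₀ : Part S) :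
    ∀ᶠ P in (S.ult : Filter (Part S)), P.Refines P₀ :=
  Ultrafilter.of_le S.fine (mem_iInf_of_mem P₀ (mem_principal_self _))

/-- `T` is the weak limit of the pinchings of `x`. -/
def WLim (x T : Op H) : Prop :=
  ∀ v w : H, Tendsto (fun P : Part S => ⟪v, P.pinch x w⟫_ℂ) (S.ult : Filter (Part S))
    (𝓝 ⟪v, T w⟫_ℂ)

theorem exists_wLim {x : Op H} (hM : x ∈ S.M) (hx : IsSelfAdjoint x) :
    ∃ T, T ∈ S.A ∧ IsSelfAdjoint T ∧ ‖T‖ ≤ ‖x‖ ∧ S.WLim x T := by
  have hsym : ∀ (P : Part S) v w, ⟪P.pinch x v, w⟫_ℂ = ⟪v, P.pinch x w⟫_ℂ := fun P => by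
    have : IsSelfAdjoint (P.pinch x) := by rw [IsSelfAdjoint, ← P.pinch_star, hx.star_eq]
    exact this.isSymmetric
  have hex : ∀ v w : H, ∃ l : ℂ, ‖l‖ ≤ ‖x‖ * ‖v‖ * ‖w‖ ∧
      Tendsto (fun P : Part S => ⟪P.pinch x v, w⟫_ℂ) (S.ult : Filter (Part S)) (𝓝 l) := by
    intro v w
    obtain ⟨l, hl, hlim⟩ := (isCompact_closedBall (0 : ℂ) (‖x‖ * ‖v‖ * ‖w‖)).ultrafilter_le_nhds
      (S.ult.map fun P : Part S => ⟪P.pinch x v, w⟫_ℂ)
      (le_principal_iff.2 (mem_map.2 (univ_mem' fun P => mem_closedBall_zero_iff.2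
        ((norm_inner_le_norm _ _).trans (mul_le_mul_of_nonneg_right
          (((P.pinch x).le_opNorm v).trans
            (mul_le_mul_of_nonneg_right (P.norm_pinch_le x) (norm_nonneg _))) (norm_nonneg _))))))
    exact ⟨l, mem_closedBall_zero_iff.1 hl, hlim⟩
  choose L hLn hL using hex
  have hu : ∀ {v w : H} {l : ℂ},
      Tendsto (fun P : Part S => ⟪P.pinch x v, w⟫_ℂ) (S.ult : Filter (Part S)) (𝓝 l) → L v w = l :=
    fun h => tendsto_nhds_unique (hL _ _) h
  let B := LinearMap.mkContinuous₂ (LinearMap.mk₂'ₛₗ (starRingEnd ℂ) (RingHom.id ℂ) L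
    (fun v v' w => hu (((hL v w).add (hL v' w)).congr fun P => by rw [map_add, inner_add_left]))
    (fun c v w => hu (((hL v w).const_mul (starRingEnd ℂ c)).congr fun P => by
      rw [map_smul, inner_smul_left]))
    (fun v w w' => hu (((hL v w).add (hL v w')).congr fun P => by rw [inner_add_right]))
    (fun c v w => hu (((hL v w).const_mul c).congr fun P => by rw [inner_smul_right])))
    ‖x‖ hLn
  set T := InnerProductSpace.continuousLinearMapOfBilin B
  have hT : ∀ v w, ⟪T v, w⟫_ℂ = L v w := fun v w =>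
    InnerProductSpace.continuousLinearMapOfBilin_apply B v w
  have hTs : ∀ v w, ⟪T v, w⟫_ℂ = ⟪v, T w⟫_ℂ := by
    intro v w
    rw [← inner_conj_symm v (T w), hT, hT]
    refine hu (((Complex.continuous_conj.tendsto _).comp (hL w v)).congr fun P => ?_)
    rw [Function.comp_apply, inner_conj_symm, hsym]
  have hcomm : ∀ b : Op H, (∀ᶠ P in (S.ult : Filter (Part S)), Commute b (P.pinch x)) →
      Commute b T := fun b hb => by
    refine ContinuousLinearMap.ext fun v => ext_inner_right ℂ fun w => ?_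
    rw [mul_apply_eq_comp, mul_apply_eq_comp, ← ContinuousLinearMap.adjoint_inner_right, hT, hT]
    refine (hu ((hL v _).congr' ?_)).symm
    filter_upwards [hb] with P hP
    rw [ContinuousLinearMap.adjoint_inner_right, ← mul_apply_eq_comp, hP.eq, mul_apply_eq_comp]
  refine ⟨T, S.mem_A_of_commute_proj ?_ fun e he hep => hcomm e ?_,
    ContinuousLinearMap.isSelfAdjoint_iff_isSymmetric.2 hTs, ?_, fun v w => ?_⟩
  · exact S.mem_M_iff.2 fun y hy =>
      (hcomm y (Eventually.of_forall fun P => S.commute_of_mem (P.pinch_mem hM) hy)).eq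
  · exact (S.eventually_refines (Part.pair S he hep)).mono fun P hP => hP.commute_pinch x
  · refine ContinuousLinearMap.opNorm_le_bound _ (norm_nonneg _) fun v => ?_
    have h1 := hLn v (T v)
    rw [← hT, inner_self_eq_norm_sq_to_K] at h1
    simp only [Complex.coe_algebraMap, norm_pow, Complex.norm_real, norm_norm] at h1
    rcases eq_or_lt_of_le (norm_nonneg (T v)) with h0 | h0
    · rw [← h0]; positivity
    · exact le_of_mul_le_mul_right (by rw [← sq]; exact h1) h0
  · rw [← hTs, hT]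
    exact (hL v w).congr fun P => hsym P v w

variable {S}

/-- Weak convergence against elements of finite 2-norm. -/
lemma WLim.tendsto_inner {x T a b : Op H} (h : S.WLim x T) (hM : x ∈ S.M) (hT : T ∈ S.M)
    (ha : a ∈ S.fin) (hb : b ∈ S.fin) :
    Tendsto (fun P : Part S => ⟪S.vc a, S.vc (P.pinch x * b)⟫_ℂ) (S.ult : Filter (Part S))
      (𝓝 ⟪S.vc a, S.vc (T * b)⟫_ℂ) := by
  rw [← (inner_vc ha (S.mul_mem_fin_left hT hb)).tsum_eq]
  refine (tendsto_tsum_of_dominated_convergence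
    (bound := fun i => ‖x‖ * (‖a (S.vec i)‖ ^ 2 + ‖b (S.vec i)‖ ^ 2))
    (((hasSum_norm_sq ha).summable.add (hasSum_norm_sq hb).summable).mul_left _)
    (fun i => h (a (S.vec i)) (b (S.vec i))) (Eventually.of_forall fun P i => ?_)).congr
    fun P => (inner_vc ha (S.mul_mem_fin_left (P.pinch_mem hM) hb)).tsum_eq
  refine (norm_inner_le_norm _ _).trans ?_
  have h1 : ‖P.pinch x (b (S.vec i))‖ ≤ ‖x‖ * ‖b (S.vec i)‖ :=
    ((P.pinch x).le_opNorm _).trans
      (mul_le_mul_of_nonneg_right (P.norm_pinch_le x) (norm_nonneg _))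
  calc ‖a (S.vec i)‖ * ‖P.pinch x (b (S.vec i))‖ ≤ ‖a (S.vec i)‖ * (‖x‖ * ‖b (S.vec i)‖) :=
        mul_le_mul_of_nonneg_left h1 (norm_nonneg _)
    _ ≤ _ := by
        nlinarith [norm_nonneg x, sq_nonneg (‖a (S.vec i)‖ - ‖b (S.vec i)‖), norm_nonneg (a (S.vec i)),
          norm_nonneg (b (S.vec i)),
          mul_nonneg (norm_nonneg x) (sq_nonneg (‖a (S.vec i)‖ - ‖b (S.vec i)‖))]

variable (S)

/-- The pinchings of a finite projection outside the finite part of `A` tend to zero. -/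
theorem exists_pinch_small {q : Op H} (hq : q ∈ S.fin) (hqp : IsStarProjection q)
    (hz : S.z0 * q = 0) {η : ℝ} (hη : 0 < η) : ∃ P₀ : Part S, ‖S.vc (P₀.pinch q)‖ ≤ η := by
  obtain ⟨T, hTA, -, -, hw⟩ := S.exists_wLim hq.1 hqp.isSelfAdjoint
  have hTf : T ∈ S.fin := by
    refine S.mem_fin.2 ⟨S.le T hTA,
      summable_of_sum_le (c := ‖S.vc q‖ ^ 2) (fun i => sq_nonneg _) fun s => ?_⟩
    have hlim : Tendsto (fun P : Part S => ∑ i ∈ s, RCLike.re ⟪T (S.vec i), P.pinch q (S.vec i)⟫_ℂ)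
        (S.ult : Filter (Part S)) (𝓝 (∑ i ∈ s, ‖T (S.vec i)‖ ^ 2)) := by
      refine tendsto_finsetSum _ fun i _ => ?_
      rw [← inner_self_eq_norm_sq (𝕜 := ℂ)]
      exact (RCLike.continuous_re.tendsto _).comp (hw _ _)
    have hle : ∀ P : Part S, ∑ i ∈ s, RCLike.re ⟪T (S.vec i), P.pinch q (S.vec i)⟫_ℂ ≤
        (∑ i ∈ s, ‖T (S.vec i)‖ ^ 2 + ‖S.vc q‖ ^ 2) / 2 := fun P => by
      refine (Finset.sum_le_sum fun i _ => (?_ : _ ≤
        (‖T (S.vec i)‖ ^ 2 + ‖P.pinch q (S.vec i)‖ ^ 2) / 2)).trans ?_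
      · refine (RCLike.re_le_norm _).trans ((norm_inner_le_norm _ _).trans ?_)
        nlinarith [sq_nonneg (‖T (S.vec i)‖ - ‖P.pinch q (S.vec i)‖)]
      · rw [← Finset.sum_div, Finset.sum_add_distrib]
        have h1 := sum_le_hasSum s (fun i _ => sq_nonneg _) (hasSum_norm_sq (P.pinch_mem_fin hq))
        have h2 := pow_le_pow_left₀ (norm_nonneg _) (P.norm_vc_pinch_le hq) 2
        linarith
    linarith [le_of_tendsto hlim (Eventually.of_forall hle)]
  have hT0 : T = 0 := by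
    rw [← S.z0_mul_of_fin hTA hTf]
    refine ContinuousLinearMap.ext fun v => ext_inner_left ℂ fun w => ?_
    rw [zero_apply, inner_zero_right, mul_apply_eq_comp, ← ContinuousLinearMap.adjoint_inner_left]
    refine tendsto_nhds_unique ((hw _ v).congr fun P => ?_) tendsto_const_nhds
    rw [ContinuousLinearMap.adjoint_inner_left, ← mul_apply_eq_comp]
    have h0 : S.z0 * P.pinch q = 0 := by
      rw [Part.pinch, Finset.mul_sum]
      refine Finset.sum_eq_zero fun i _ => ?_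
      rw [← mul_assoc, ← mul_assoc, ← P.comm_A i S.z0_mem_A, mul_assoc (P.p i), hz, mul_zero,
        zero_mul]
    rw [h0, zero_apply, inner_zero_right]
  have hlim := hw.tendsto_inner hq.1 (S.le T hTA) hq hq
  rw [hT0, zero_mul, vc_zero, inner_zero_right] at hlim
  obtain ⟨P, hP⟩ := ((Metric.tendsto_nhds.1 hlim) (η ^ 2) (pow_pos hη 2)).exists
  refine ⟨P, ?_⟩
  have e : ‖S.vc (P.pinch q)‖ ^ 2 = RCLike.re ⟪S.vc q, S.vc (P.pinch q * q)⟫_ℂ := by
    rw [← inner_self_eq_norm_sq (𝕜 := ℂ), P.inner_pinch hq (P.pinch_mem_fin hq),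
      P.refines_refl.pinch_pinch]
    conv_lhs => rw [← hqp.isIdempotentElem.eq, inner_vc_mul_right hq.1 hq
      (P.pinch_mem_fin (S.mul_mem_fin_left hq.1 hq)), hqp.isSelfAdjoint.star_eq,
      hqp.isIdempotentElem.eq]
  rw [dist_zero_right] at hP
  nlinarith [RCLike.re_le_norm ⟪S.vc q, S.vc (P.pinch q * q)⟫_ℂ, norm_nonneg (S.vc (P.pinch q))]

end Semi

end Vale.Agent.P078.Sf
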