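import Vale.Agent.P078.Sf.Pieces

/-!
# Colours and a projection outside the finite part
-/

open scoped ComplexOrder InnerProductSpace
open Vale.Agent.P078.Tr (cut)

noncomputable section

namespace Vale.Agent.P078.Sf

universe u

variable {H : Type u} [NormedAddCommGroup H] [InnerProductSpace ℂ H] [CompleteSpace H]

lemma exists_small_all (S : Semi H) (F : Finset H) {δ : ℝ} (hδ : 0 < δ) :
    ∃ η > (0 : ℝ), ∀ c ∈ S.fin, ‖c‖ ≤ 1 → ‖S.vc c‖ ≤ η → ∀ v ∈ F, ‖c v‖ < δ := by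
  classical
  induction F using Finset.induction_on with
  | empty => exact ⟨1, one_pos, by simp⟩
  | insert w s _ ih =>
    obtain ⟨η, hη, h⟩ := ih
    obtain ⟨η', hη', h'⟩ := S.exists_small w hδ
    refine ⟨min η η', lt_min hη hη', fun c hc h1 h2 => Finset.forall_mem_insert _ _ _ |>.2
      ⟨h' c hc h1 (h2.trans (min_le_right _ _)), h c hc h1 (h2.trans (min_le_left _ _))⟩⟩

/-- Cutting finitely many small operators by one projection. -/
lemma exists_cut_all {S : Semi H} {ι : Type*} [Fintype ι] {q : Op H} (hq : q ∈ S.fin)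
    (hqp : IsStarProjection q) (E : ι → Op H) (hE : ∀ i, E i ∈ S.fin) (_h1 : ∀ i, q * E i = E i)
    (h2 : ∀ i, E i * q = E i) {ν : ℝ} (hν : 0 < ν) :
    ∃ g ∈ S.fin, IsStarProjection g ∧ q * g = g ∧ g * q = g ∧
      (∀ i, ‖g * E i * g‖ ≤ ν) ∧ (q - g) ∈ S.fin ∧ ‖q - g‖ ≤ 1 ∧
      ν ^ 2 * ‖S.vc (q - g)‖ ^ 2 ≤ ∑ i, ‖S.vc (E i)‖ ^ 2 := by
  set h := ∑ i, star (E i) * E i with hh
  have hM : h ∈ S.M := sum_mem fun i _ => mul_mem (star_mem (hE i).1) (hE i).1
  have h0 : 0 ≤ h := Finset.sum_nonneg fun i _ => star_mul_self_nonneg _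
  set c := cut h (ν ^ 2)
  have hc : IsStarProjection c := Tr.isStarProjection_cut h _
  obtain ⟨hcf, hcn⟩ := S.cut_mem_fin hM h0
    (hasSum_sum fun i (_ : i ∈ Finset.univ) => Semi.hasSum_norm_sq (hE i))
    (fun j => le_of_eq (by
      rw [hh, _root_.sum_apply, inner_sum, map_sum]
      exact Finset.sum_congr rfl fun i _ => re_inner_star_mul _ _)) (pow_pos hν 2)
  have hqc : Commute q c := by
    refine Tr.commute_cut _ (?_ : Commute h q)
    refine Commute.sum_left _ _ _ fun i _ => ?_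
    show star (E i) * E i * q = q * (star (E i) * E i)
    rw [mul_assoc, h2, ← mul_assoc,
      show q * star (E i) = star (E i) by
        have := congrArg star (h2 i)
        rwa [star_mul, hqp.isSelfAdjoint.star_eq] at this]
  have hg : IsStarProjection (q * (1 - c)) :=
    hqp.mul hc.one_sub ((Commute.one_right q).sub_right hqc)
  have e : q - q * (1 - c) = q * c := by rw [mul_sub, mul_one, sub_sub_cancel]
  refine ⟨q * (1 - c), S.mul_mem_fin_right hq (sub_mem (one_mem _) hcf.1), hg,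
    by rw [← mul_assoc, hqp.isIdempotentElem.eq],
    by rw [mul_assoc, ← ((Commute.one_right q).sub_right hqc).eq, ← mul_assoc,
      hqp.isIdempotentElem.eq], fun i => ?_, ?_, ?_, ?_⟩
  · refine le_of_pow_le_pow_left₀ two_ne_zero hν.le (le_trans ?_ (norm_mul_cut_compl h0
      (Finset.single_le_sum (fun j _ => star_mul_self_nonneg (E j)) (Finset.mem_univ i)) (sq_nonneg ν)))
    refine pow_le_pow_left₀ (norm_nonneg _) ?_ 2
    rw [mul_assoc, ← mul_assoc (E i), h2]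
    exact (norm_mul_le _ _).trans (mul_le_of_le_one_left (norm_nonneg _) hg.norm_le)
  · rw [e]; exact S.mul_mem_fin_right hq hcf.1
  · rw [e]; exact (hqp.mul hc hqc).norm_le
  · rw [e]
    have h3 : ‖S.vc (q * c)‖ ≤ ‖S.vc c‖ := (Semi.norm_vc_mul_left hq.1 hcf).trans
      (mul_le_of_le_one_left (norm_nonneg _) hqp.norm_le)
    rw [le_div_iff₀ (pow_pos hν 2)] at hcn
    nlinarith [pow_le_pow_left₀ (norm_nonneg _) h3 2, pow_pos hν 2]

/-- The mean of a random colouring. -/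
def target (r : ℕ) (z T : Op H) : Op H :=
  (1 / (r : ℝ) ^ 2) • z + (1 / (r : ℝ) - 1 / (r : ℝ) ^ 2) • T

omit [CompleteSpace H] in
lemma norm_target_le {r : ℕ} [NeZero r] {z T : Op H} {β : ℝ} (hz : ‖z‖ ≤ β) (hT : ‖T‖ ≤ β) :
    ‖target r z T‖ ≤ β / r := by
  have hw : 0 ≤ 1 / (r : ℝ) - 1 / (r : ℝ) ^ 2 := by
    have : (1 : ℝ) ≤ r := by exact_mod_cast NeZero.one_le
    rw [sub_nonneg]
    gcongr
    nlinarith
  refine (norm_add_le _ _).trans ?_
  rw [norm_smul, norm_smul, Real.norm_eq_abs, Real.norm_eq_abs, abs_of_nonneg hw,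
    abs_of_nonneg (by positivity)]
  refine (add_le_add (mul_le_mul_of_nonneg_left hz (by positivity))
    (mul_le_mul_of_nonneg_left hT hw)).trans (le_of_eq ?_)
  ring

omit [CompleteSpace H] in
lemma norm_target_const_sub {r : ℕ} [NeZero r] {x T : Op H} (hT : ‖T‖ ≤ r * ‖x‖) :
    ‖target r (∑ _c : Fin r, x) T - (1 / (r : ℝ)) • T‖ ≤ 2 * ‖x‖ / r := by
  have hr0 : (0 : ℝ) < r := by exact_mod_cast Nat.pos_of_ne_zero (NeZero.ne r)
  have e : target r (∑ _c : Fin r, x) T - (1 / (r : ℝ)) • T =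
      (1 / (r : ℝ)) • (x - (1 / (r : ℝ)) • T) := by
    simp only [target, Finset.sum_const, Finset.card_univ, Fintype.card_fin]
    rw [← Nat.cast_smul_eq_nsmul ℝ]
    match_scalars <;> field_simp
    ring
  rw [e, norm_smul, Real.norm_eq_abs, abs_of_pos (by positivity)]
  have h1 : ‖(1 / (r : ℝ)) • T‖ ≤ ‖x‖ := by
    rw [norm_smul, Real.norm_eq_abs, abs_of_pos (by positivity)]
    refine (mul_le_mul_of_nonneg_left hT (by positivity)).trans (le_of_eq ?_)
    field_simp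
  refine (mul_le_mul_of_nonneg_left ((norm_sub_le _ _).trans (add_le_add le_rfl h1))
    (by positivity)).trans (le_of_eq ?_)
  ring

lemma norm_conj_le {g w : Op H} (hg : IsStarProjection g) {β : ℝ} (hw : ‖w‖ ≤ β) :
    ‖g * w * g‖ ≤ β :=
  ((norm_mul_le _ _).trans ((mul_le_of_le_one_right (norm_nonneg _) hg.norm_le).trans
    ((norm_mul_le _ _).trans ((mul_le_of_le_one_left (norm_nonneg _) hg.norm_le))))).trans hw

/-- The block between the two parts, squared. -/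
lemma cross_eq {r : ℕ} {g x : Op H} {X p0 : Fin r → Op H} (hg : IsStarProjection g)
    (hx : IsSelfAdjoint x) (hX : ∀ c, IsStarProjection (X c)) (hp : ∀ c, IsStarProjection (p0 c))
    (ho : ∀ c d, c ≠ d → p0 c * p0 d = 0) :
    (g * ∑ c, X c * x * p0 c) * star (g * ∑ c, X c * x * p0 c) =
      g * (∑ c, X c * (x * p0 c * x) * X c) * g := by
  simp only [star_mul, star_sum, hg.isSelfAdjoint.star_eq, hx.star_eq,
    (hX _).isSelfAdjoint.star_eq, (hp _).isSelfAdjoint.star_eq, Finset.mul_sum, Finset.sum_mul]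
  refine Finset.sum_congr rfl fun c _ => ?_
  rw [Finset.sum_eq_single c (fun k _ hk => ?_) (by simp)]
  · simp only [← mul_assoc]
    rw [mul_assoc (g * X c * x) (p0 c) (p0 c), (hp c).isIdempotentElem.eq]
  · simp only [← mul_assoc]
    rw [mul_assoc (g * X k * x) (p0 k) (p0 c), ho k c hk]
    simp

/-- Colours, a centre and a projection outside the finite part. -/
theorem exists_outside_colours (S : Semi H) {r : ℕ} [NeZero r] {x e : Op H} (hx : x ∈ S.M)
    (hxs : IsSelfAdjoint x) (hx0 : x ≠ 0) {ε : ℝ} (hε : 0 < ε) (hε1 : ε < 1) (hr : 144 ≤ (r : ℝ) * ε ^ 2)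
    {p0 : Fin r → Op H} (hp0 : ∀ c, p0 c ∈ S.A ∧ IsStarProjection (p0 c))
    (ho0 : ∀ c d, c ≠ d → p0 c * p0 d = 0) (hs0 : ∑ c, p0 c = e) (hep : IsStarProjection e)
    (F : Finset H) {δ : ℝ} (hδ : 0 < δ) :
    ∃ (X : Fin r → Op H) (a g : Op H),
      (∀ c, X c ∈ S.A ∧ IsStarProjection (X c)) ∧ (∀ c d, c ≠ d → X c * X d = 0) ∧ ∑ c, X c = 1 ∧
      a ∈ S.A ∧ IsSelfAdjoint a ∧ ‖a‖ ≤ ‖x‖ ∧ g ∈ S.M ∧ IsStarProjection g ∧ S.z0 * g = 0 ∧
      (∀ v ∈ F, ‖(1 - S.z0 - g) v‖ < δ) ∧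
      ‖g * (∑ c, X c * x * X c - a) * g‖ ≤ ε * ‖x‖ / 36 ∧
      ‖g * ∑ c, X c * x * p0 c‖ ≤ ε * ‖x‖ / 8 := by
  classical
  have hb0 : 0 < ‖x‖ := norm_pos_iff.2 hx0
  have hε2 : 0 < ε ^ 2 := pow_pos hε 2
  have hr0 : (0 : ℝ) < r := by exact_mod_cast Nat.pos_of_ne_zero (NeZero.ne r)
  obtain ⟨q, hqf, hqp, hzq, hqF⟩ := S.exists_outside F (half_pos hδ)
  set y : Fin 2 → Fin r → Op H := ![fun _ => x, fun c => x * p0 c * x]
  have hy : ∀ i c, y i c ∈ S.M := Fin.forall_fin_two.2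
    ⟨fun _ => hx, fun c => mul_mem (mul_mem hx (S.le _ (hp0 c).1)) hx⟩
  have hys : ∀ i c, IsSelfAdjoint (y i c) := Fin.forall_fin_two.2 ⟨fun _ => hxs, fun c => by
    simp [y, IsSelfAdjoint, hxs.star_eq, (hp0 c).2.isSelfAdjoint.star_eq, mul_assoc]⟩
  choose T hTA hTs hTn hTw using fun i =>
    S.exists_wLim (sum_mem fun c (_ : c ∈ Finset.univ) => hy i c)
      (isSelfAdjoint_sum Finset.univ fun c _ => hys i c)
  obtain ⟨ν, hν0, hν1, hν2⟩ : ∃ ν > (0 : ℝ), ν ≤ ε * ‖x‖ / 72 ∧ ν ≤ ε ^ 2 * ‖x‖ ^ 2 / 144 :=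
    ⟨min (ε * ‖x‖ / 72) (ε ^ 2 * ‖x‖ ^ 2 / 144), lt_min (by positivity) (by positivity),
      min_le_left _ _, min_le_right _ _⟩
  obtain ⟨ηs, hηs, hsmall⟩ := exists_small_all S F (half_pos hδ)
  obtain ⟨X, hX, hXo, hX1, hXb⟩ := Semi.exists_colouring hqf hqp hzq y hy hys
    (fun i => S.le _ (hTA i)) hTw (by positivity : (0 : ℝ) < ν * ηs / 2)
  have htM : ∀ i, target r (∑ c, y i c) (T i) ∈ S.M := fun i => by
    rw [target, ← Complex.coe_smul (1 / (r : ℝ) ^ 2),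
      ← Complex.coe_smul (1 / (r : ℝ) - 1 / (r : ℝ) ^ 2)]
    exact add_mem (S.M.toStarSubalgebra.smul_mem (sum_mem fun c _ => hy i c) _)
      (S.M.toStarSubalgebra.smul_mem (S.le _ (hTA i)) _)
  obtain ⟨g, hgf, hgp, hqg, hgq, hgE, hdf, hdn, hdv⟩ := exists_cut_all hqf hqp
    (fun i => q * (∑ c, X c * y i c * X c - target r (∑ c, y i c) (T i)) * q)
    (fun i => S.mul_mem_fin_left (mul_mem hqf.1 (sub_mem (sum_mem fun c _ =>
      mul_mem (mul_mem (S.le _ (hX c).1) (hy i c)) (S.le _ (hX c).1)) (htM i))) hqf)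
    (fun i => by simp only [← mul_assoc, hqp.isIdempotentElem.eq])
    (fun i => by simp only [mul_assoc, hqp.isIdempotentElem.eq]) hν0
  have hdsmall : ∀ v ∈ F, ‖(q - g) v‖ < δ / 2 := by
    refine hsmall _ hdf hdn ((sq_le_sq₀ (norm_nonneg _) hηs.le).1 ?_)
    refine le_of_mul_le_mul_left (hdv.trans ?_) (pow_pos hν0 2)
    rw [Fin.sum_univ_two]
    have h0 := pow_le_pow_left₀ (norm_nonneg _) (hXb 0) 2
    have h1 := pow_le_pow_left₀ (norm_nonneg _) (hXb 1) 2
    simp only [target] at h0 h1 ⊢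
    nlinarith
  have hcompr : ∀ i, ‖g * (∑ c, X c * y i c * X c - target r (∑ c, y i c) (T i)) * g‖ ≤ ν :=
    fun i => by
      have := hgE i
      simp only [← mul_assoc, hgq] at this
      rwa [mul_assoc (g * _), hqg] at this
  have hT0 : ‖T 0‖ ≤ r * ‖x‖ := (hTn 0).trans ((norm_sum_le _ _).trans (by simp [y]))
  have hsum1 : ‖∑ c, y 1 c‖ ≤ ‖x‖ ^ 2 := by
    have : ∑ c, y 1 c = x * e * x := by simp [y, ← Finset.sum_mul, ← Finset.mul_sum, hs0]
    rw [this, sq]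
    refine (norm_mul_le _ _).trans (mul_le_mul_of_nonneg_right ((norm_mul_le _ _).trans ?_)
      (norm_nonneg _))
    exact mul_le_of_le_one_right (norm_nonneg _) hep.norm_le
  refine ⟨X, (1 / (r : ℝ)) • T 0, g, hX, hXo, hX1, ?_, ?_, ?_, hgf.1, hgp,
    by rw [← hqg, ← mul_assoc, hzq, zero_mul], fun v hv => ?_, ?_, ?_⟩
  · rw [← Complex.coe_smul]
    exact S.A.smul_mem (hTA 0) _
  · rw [IsSelfAdjoint, ← Complex.coe_smul, star_smul, (hTs 0).star_eq, Complex.star_def,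
      Complex.conj_ofReal]
  · rw [norm_smul, Real.norm_eq_abs, abs_of_pos (by positivity)]
    refine (mul_le_mul_of_nonneg_left hT0 (by positivity)).trans (le_of_eq ?_)
    field_simp
  · rw [show (1 - S.z0 - g) v = (1 - S.z0 - q) v + (q - g) v by
      simp only [sub_apply]; abel]
    linarith [norm_add_le ((1 - S.z0 - q) v) ((q - g) v), hqF v hv, hdsmall v hv]
  · have h3 : 2 * ‖x‖ / r ≤ ε * ‖x‖ / 72 := by
      rw [div_le_div_iff₀ hr0 (by norm_num)]
      nlinarith [mul_le_mul_of_nonneg_left hr hb0.le,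
        mul_le_mul_of_nonneg_left hε1.le (mul_pos (mul_pos hε hb0) hr0).le]
    have e0 : ∑ c, X c * x * X c - (1 / (r : ℝ)) • T 0 =
        (∑ c, X c * y 0 c * X c - target r (∑ c, y 0 c) (T 0)) +
          (target r (∑ _c : Fin r, x) (T 0) - (1 / (r : ℝ)) • T 0) := by simp [y]
    rw [e0, mul_add, add_mul]
    refine (norm_add_le _ _).trans ((add_le_add (hcompr 0)
      (norm_conj_le hgp (norm_target_const_sub hT0))).trans ?_)
    linarith
  · have h3 : ‖x‖ ^ 2 / r ≤ ε ^ 2 * ‖x‖ ^ 2 / 144 := by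
      rw [div_le_div_iff₀ hr0 (by norm_num)]
      nlinarith
    refine (sq_le_sq₀ (norm_nonneg _) (by positivity)).1 ?_
    rw [sq, ← CStarRing.norm_self_mul_star,
      cross_eq hgp hxs (fun c => (hX c).2) (fun c => (hp0 c).2) ho0]
    have e1 : ∑ c, X c * (x * p0 c * x) * X c =
        (∑ c, X c * y 1 c * X c - target r (∑ c, y 1 c) (T 1)) + target r (∑ c, y 1 c) (T 1) := by
      simp [y]
    rw [e1, mul_add, add_mul]
    refine (norm_add_le _ _).trans ((add_le_add (hcompr 1)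
      (norm_conj_le hgp (norm_target_le hsum1 ((hTn 1).trans hsum1)))).trans ?_)
    nlinarith

end Vale.Agent.P078.Sf
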