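import Vale.Agent.P078.Sf.Closed

/-!
# Partitions, pinchings and the 2-norm
-/

open scoped ComplexOrder InnerProductSpace

noncomputable section

namespace Vale.Agent.P078.Sf

universe u

variable {H : Type u} [NormedAddCommGroup H] [InnerProductSpace ℂ H] [CompleteSpace H]
  {S : Semi H}

namespace Part

variable (P Q : Part S)

lemma mem_M (i : Fin P.n) : P.p i ∈ S.M := S.le _ (P.mem i)

lemma comm_A (i : Fin P.n) {a : Op H} (ha : a ∈ S.A) : P.p i * a = a * P.p i :=
  S.comm _ (P.mem i) _ ha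

lemma mul_self (i : Fin P.n) : P.p i * P.p i = P.p i := (P.proj i).isIdempotentElem.eq

lemma star_p (i : Fin P.n) : star (P.p i) = P.p i := (P.proj i).isSelfAdjoint.star_eq

lemma sum_apply_sq (v : H) : ∑ i, ‖P.p i v‖ ^ 2 = ‖v‖ ^ 2 := by
  have h : ∀ i, (‖P.p i v‖ ^ 2 : ℂ) = ⟪v, P.p i v⟫_ℂ := fun i => by
    have e : ⟪v, P.p i v⟫_ℂ = ⟪P.p i v, P.p i v⟫_ℂ := by
      conv_rhs => rw [← ContinuousLinearMap.adjoint_inner_right,
        ← ContinuousLinearMap.star_eq_adjoint, P.star_p, ← mul_apply_eq_comp, P.mul_self]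
    rw [e, inner_self_eq_norm_sq_to_K]
    rfl
  apply Complex.ofReal_injective
  push_cast
  rw [Finset.sum_congr rfl fun i _ => h i, ← inner_sum, ← _root_.sum_apply (f := P.p), P.sum_eq,
    one_apply_eq_self, inner_self_eq_norm_sq_to_K]
  rfl

lemma pinch_mem {x : Op H} (hx : x ∈ S.M) : P.pinch x ∈ S.M :=
  sum_mem fun i _ => mul_mem (mul_mem (P.mem_M i) hx) (P.mem_M i)

lemma pinch_mem_fin {x : Op H} (hx : x ∈ S.fin) : P.pinch x ∈ S.fin :=
  sum_mem fun i _ => S.mul_mem_fin_right (S.mul_mem_fin_left (P.mem_M i) hx) (P.mem_M i)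

lemma p_mul_pinch (i : Fin P.n) (x : Op H) : P.p i * P.pinch x = P.p i * x * P.p i := by
  rw [pinch, Finset.mul_sum, Finset.sum_eq_single i (fun j _ hj => ?_) (by simp)]
  · rw [← mul_assoc, ← mul_assoc, P.mul_self]
  · rw [← mul_assoc, ← mul_assoc, P.orth i j (Ne.symm hj), zero_mul, zero_mul]

lemma norm_pinch_le (x : Op H) : ‖P.pinch x‖ ≤ ‖x‖ := by
  refine ContinuousLinearMap.opNorm_le_bound _ (norm_nonneg x) fun v => ?_
  refine (sq_le_sq₀ (norm_nonneg _) (by positivity)).1 ?_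
  rw [← P.sum_apply_sq (P.pinch x v), mul_pow, ← P.sum_apply_sq v, Finset.mul_sum]
  refine Finset.sum_le_sum fun i _ => ?_
  have e : P.p i (P.pinch x v) = P.p i (x (P.p i v)) := DFunLike.congr_fun (P.p_mul_pinch i x) v
  rw [e, ← mul_pow]
  refine pow_le_pow_left₀ (norm_nonneg _) ?_ 2
  refine ((P.p i).le_opNorm _).trans
    ((mul_le_of_le_one_left (norm_nonneg _) (P.proj i).norm_le).trans ?_)
  exact x.le_opNorm _

lemma pinch_sum {ι : Type*} (s : Finset ι) (f : ι → Op H) :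
    P.pinch (∑ j ∈ s, f j) = ∑ j ∈ s, P.pinch (f j) := by
  simp only [pinch, Finset.mul_sum, Finset.sum_mul]
  exact Finset.sum_comm

lemma pinch_star (x : Op H) : P.pinch (star x) = star (P.pinch x) := by
  simp only [pinch, star_sum, star_mul, P.star_p, mul_assoc]

lemma inner_pinch {x y : Op H} (hx : x ∈ S.fin) (hy : y ∈ S.fin) :
    ⟪S.vc (P.pinch x), S.vc y⟫_ℂ = ⟪S.vc x, S.vc (P.pinch y)⟫_ℂ := by
  have hl : ∀ i {z : Op H}, z ∈ S.fin → P.p i * z ∈ S.fin := fun i z hz =>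
    S.mul_mem_fin_left (P.mem_M i) hz
  rw [pinch, pinch, Semi.vc_sum _ _ fun i _ => S.mul_mem_fin_right (hl i hx) (P.mem_M i),
    Semi.vc_sum _ _ fun i _ => S.mul_mem_fin_right (hl i hy) (P.mem_M i), sum_inner, inner_sum]
  refine Finset.sum_congr rfl fun i _ => ?_
  rw [Semi.inner_vc_mul_right (P.mem_M i) (hl i hx) hy, P.star_p,
    Semi.inner_vc_mul_left (P.mem_M i) hx (S.mul_mem_fin_right hy (P.mem_M i)), P.star_p, mul_assoc]

lemma refines_refl : P.Refines P := fun j => ⟨j, P.mul_self j⟩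

variable {P Q}

lemma Refines.trans {R : Part S} (h : R.Refines Q) (h' : Q.Refines P) : R.Refines P := fun j => by
  obtain ⟨k, hk⟩ := h j
  obtain ⟨i, hi⟩ := h' k
  exact ⟨i, by rw [← hk, ← mul_assoc, hi]⟩

lemma Refines.pinch_pinch (h : Q.Refines P) (x : Op H) : Q.pinch (P.pinch x) = Q.pinch x := by
  refine Finset.sum_congr rfl fun j _ => ?_
  obtain ⟨i, hi⟩ := h j
  have hi' : Q.p j * P.p i = Q.p j := by rw [Q.comm_A j (P.mem i), hi]
  rw [pinch, Finset.mul_sum, Finset.sum_mul, Finset.sum_eq_single i (fun k _ hk => ?_) (by simp)]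
  · calc Q.p j * (P.p i * x * P.p i) * Q.p j = Q.p j * P.p i * x * (P.p i * Q.p j) := by
          simp only [mul_assoc]
      _ = _ := by rw [hi', hi]
  · have h0 : Q.p j * P.p k = 0 := by
      rw [← hi', mul_assoc, P.orth i k (Ne.symm hk), mul_zero]
    simp only [← mul_assoc, h0, zero_mul]

/-- Pinchings by coarser partitions fix finer pinchings. -/
lemma Refines.pinch_coarse (h : Q.Refines P) (x : Op H) : P.pinch (Q.pinch x) = Q.pinch x := by
  rw [pinch, pinch, Finset.sum_congr rfl fun i _ => by rw [Finset.mul_sum, Finset.sum_mul],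
    Finset.sum_comm]
  refine Finset.sum_congr rfl fun j _ => ?_
  obtain ⟨i, hi⟩ := h j
  rw [Finset.sum_eq_single i (fun k _ hk => ?_) (by simp)]
  · have hi' : Q.p j * P.p i = Q.p j := by rw [Q.comm_A j (P.mem i), hi]
    simp only [← mul_assoc, hi]
    rw [mul_assoc _ (Q.p j) (P.p i), hi']
  · have h0 : P.p k * Q.p j = 0 := by rw [← hi, ← mul_assoc, P.orth k i hk, zero_mul]
    simp only [← mul_assoc, h0, zero_mul]

variable (P Q)

lemma norm_vc_pinch_le {x : Op H} (hx : x ∈ S.fin) : ‖S.vc (P.pinch x)‖ ≤ ‖S.vc x‖ := by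
  have h := P.inner_pinch (P.pinch_mem_fin hx) hx
  rw [P.refines_refl.pinch_pinch] at h
  have h1 : ‖S.vc (P.pinch x)‖ ^ 2 ≤ ‖S.vc (P.pinch x)‖ * ‖S.vc x‖ := by
    rw [← inner_self_eq_norm_sq (𝕜 := ℂ), ← h]
    exact (RCLike.re_le_norm _).trans (norm_inner_le_norm _ _)
  rcases eq_or_lt_of_le (norm_nonneg (S.vc (P.pinch x))) with h0 | h0
  · rw [← h0]; positivity
  · exact le_of_mul_le_mul_left (by rwa [← sq]) h0

variable {P Q}

lemma Refines.norm_vc_le (h : Q.Refines P) {x : Op H} (hx : x ∈ S.fin) :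
    ‖S.vc (Q.pinch x)‖ ≤ ‖S.vc (P.pinch x)‖ := by
  rw [← h.pinch_pinch]
  exact Q.norm_vc_pinch_le (P.pinch_mem_fin hx)

/-- The pieces of a pinched element are orthogonal. -/
lemma sum_norm_vc_sq {x : Op H} (hx : x ∈ S.fin) :
    ∑ i, ‖S.vc (P.p i * x * P.p i)‖ ^ 2 = ‖S.vc (P.pinch x)‖ ^ 2 := by
  have hf : ∀ i, P.p i * x * P.p i ∈ S.fin := fun i =>
    S.mul_mem_fin_right (S.mul_mem_fin_left (P.mem_M i) hx) (P.mem_M i)
  rw [← inner_self_eq_norm_sq (𝕜 := ℂ) (S.vc (P.pinch x))]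
  conv_rhs => rw [pinch, Semi.vc_sum _ _ fun i _ => hf i, sum_inner, map_sum]
  refine Finset.sum_congr rfl fun i _ => ?_
  rw [inner_sum, Finset.sum_eq_single i (fun j _ hj => ?_) (by simp), inner_self_eq_norm_sq]
  rw [mul_assoc, Semi.inner_vc_mul_left (P.mem_M i) (S.mul_mem_fin_right hx (P.mem_M i)) (hf j),
    P.star_p, ← mul_assoc, ← mul_assoc, P.orth i j (Ne.symm hj), zero_mul, zero_mul, Semi.vc_zero,
    inner_zero_right]

/-- The common refinement of two partitions. -/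
def inter (P Q : Part S) : Part S where
  n := P.n * Q.n
  p k := P.p (finProdFinEquiv.symm k).1 * Q.p (finProdFinEquiv.symm k).2
  mem _ := mul_mem (P.mem _) (Q.mem _)
  proj _ := (P.proj _).mul (Q.proj _) (P.comm_A _ (Q.mem _))
  orth k l hkl := by
    have hne : finProdFinEquiv.symm k ≠ finProdFinEquiv.symm l :=
      finProdFinEquiv.symm.injective.ne hkl
    generalize finProdFinEquiv.symm k = a at hne ⊢
    generalize finProdFinEquiv.symm l = b at hne ⊢
    calc P.p a.1 * Q.p a.2 * (P.p b.1 * Q.p b.2) = P.p a.1 * (Q.p a.2 * P.p b.1) * Q.p b.2 := by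
          simp only [mul_assoc]
      _ = P.p a.1 * P.p b.1 * (Q.p a.2 * Q.p b.2) := by
          rw [Q.comm_A _ (P.mem _)]
          simp only [mul_assoc]
      _ = 0 := by
          by_cases h1 : a.1 = b.1
          · rw [Q.orth _ _ fun h2 => hne (Prod.ext h1 h2), mul_zero]
          · rw [P.orth _ _ h1, zero_mul]
  sum_eq := by
    rw [← finProdFinEquiv.sum_comp, Fintype.sum_prod_type]
    simp only [Equiv.symm_apply_apply, ← Finset.mul_sum, Q.sum_eq, mul_one, P.sum_eq]

lemma inter_refines_left (P Q : Part S) : (P.inter Q).Refines P := fun k =>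
  ⟨(finProdFinEquiv.symm k).1, by simp only [inter]; rw [← mul_assoc, P.mul_self]⟩

lemma inter_refines_right (P Q : Part S) : (P.inter Q).Refines Q := fun k =>
  ⟨(finProdFinEquiv.symm k).2, by
    simp only [inter]
    rw [← mul_assoc, Q.comm_A _ (P.mem _), mul_assoc, Q.mul_self]⟩

/-- The partition with one piece. -/
def one (S : Semi H) : Part S where
  n := 1
  p _ := 1
  mem _ := one_mem _
  proj _ := IsStarProjection.one _
  orth i j h := absurd (Subsingleton.elim i j) h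
  sum_eq := by simp

/-- The partition by a projection and its complement. -/
def pair (S : Semi H) {e : Op H} (he : e ∈ S.A) (hp : IsStarProjection e) : Part S where
  n := 2
  p := ![e, 1 - e]
  mem := Fin.forall_fin_two.2 ⟨he, sub_mem (one_mem _) he⟩
  proj := Fin.forall_fin_two.2 ⟨hp, hp.one_sub⟩
  orth i j h := by
    fin_cases i <;> fin_cases j <;>
      simp [mul_sub, sub_mul, hp.isIdempotentElem.eq] at h ⊢
  sum_eq := by simp

lemma Refines.commute_pinch {e : Op H} {he : e ∈ S.A} {hp : IsStarProjection e}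
    (h : Q.Refines (pair S he hp)) (x : Op H) : Commute e (Q.pinch x) := by
  refine Commute.sum_right _ _ _ fun j _ => ?_
  obtain ⟨i, hi⟩ := h j
  rcases (Fin.exists_fin_two (p := fun l : Fin 2 => ![e, 1 - e] l * Q.p j = Q.p j)).1 ⟨i, hi⟩
    with hj | hj <;> simp at hj
  · have hj' : Q.p j * e = Q.p j := by rw [Q.comm_A j he, hj]
    show e * (Q.p j * x * Q.p j) = Q.p j * x * Q.p j * e
    rw [← mul_assoc, ← mul_assoc, hj, mul_assoc _ _ e, hj']
  · rw [sub_mul, one_mul, sub_eq_self] at hj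
    have hj' : Q.p j * e = 0 := by rw [Q.comm_A j he, hj]
    show e * (Q.p j * x * Q.p j) = Q.p j * x * Q.p j * e
    rw [← mul_assoc, ← mul_assoc, hj, zero_mul, zero_mul, mul_assoc _ _ e, hj', mul_zero]

end Part

end Vale.Agent.P078.Sf
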