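import Vale.Agent.P078.Sf.Level

/-!
# The colouring lemma
-/

open Filter Topology
open scoped ComplexOrder InnerProductSpace

noncomputable section

namespace Vale.Agent.P078.Sf

universe u

variable {H : Type u} [NormedAddCommGroup H] [InnerProductSpace ℂ H] [CompleteSpace H]
  {S : Semi H} {ι : Type*} [Fintype ι]

namespace Semi

/-- Averages of pinchings far out converge in 2-norm after compression. -/
lemma exists_average {q : Op H} (hq : q ∈ S.fin) (hqp : IsStarProjection q) {x T : ι → Op H}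
    (hx : ∀ i, x i ∈ S.M) (hT : ∀ i, T i ∈ S.M) (hw : ∀ i, S.WLim (x i) (T i)) {η : ℝ} (hη : 0 < η)
    (P₀ : Part S) : ∃ m > 0, ∃ P : Fin m → Part S, (∀ j, (P j).Refines P₀) ∧
      ∀ i, ‖∑ j, S.vc (q * ((P j).pinch (x i) - T i) * q)‖ ≤ η * m := by
  set B : ι → ℝ := fun i => ((‖x i‖ + ‖T i‖) * ‖S.vc q‖) ^ 2
  have hB : ∀ (P : Part S) i, ‖S.vc (q * (P.pinch (x i) - T i) * q)‖ ^ 2 ≤ B i := fun P i => by
    refine pow_le_pow_left₀ (norm_nonneg _) ?_ 2
    refine (norm_vc_mul_left (mul_mem hq.1 (sub_mem (P.pinch_mem (hx i)) (hT i))) hq).trans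
      (mul_le_mul_of_nonneg_right ?_ (norm_nonneg _))
    exact (norm_mul_le _ _).trans ((mul_le_of_le_one_left (norm_nonneg _) hqp.norm_le).trans
      ((norm_sub_le _ _).trans (add_le_add (P.norm_pinch_le _) le_rfl)))
  have hseq : ∀ k : ℕ, ∃ P : Fin k → Part S, (∀ j, (P j).Refines P₀) ∧
      ∀ i, ‖∑ j, S.vc (q * ((P j).pinch (x i) - T i) * q)‖ ^ 2 ≤ k * (B i + 1) := by
    intro k
    induction k with
    | zero => exact ⟨Fin.elim0, fun j => j.elim0, fun i => by simp⟩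
    | succ k ih =>
      obtain ⟨P, hP, hn⟩ := ih
      set V : ι → Op H := fun i => ∑ j, q * ((P j).pinch (x i) - T i) * q
      have hf : ∀ (Q : Part S) i, q * (Q.pinch (x i) - T i) * q ∈ S.fin := fun Q i =>
        S.mul_mem_fin_left (mul_mem hq.1 (sub_mem (Q.pinch_mem (hx i)) (hT i))) hq
      have hV : ∀ i, V i ∈ S.fin := fun i => sum_mem fun j _ => hf _ i
      have hev : ∀ i, ∀ᶠ Q in (S.ult : Filter (Part S)),
          2 * RCLike.re ⟪S.vc (V i), S.vc (q * (Q.pinch (x i) - T i) * q)⟫_ℂ ≤ 1 := fun i => by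
        have hqV : q * V i ∈ S.fin := S.mul_mem_fin_left hq.1 (hV i)
        have e : ∀ Q : Part S, ⟪S.vc (V i), S.vc (q * (Q.pinch (x i) - T i) * q)⟫_ℂ =
            ⟪S.vc (q * V i), S.vc (Q.pinch (x i) * q)⟫_ℂ - ⟪S.vc (q * V i), S.vc (T i * q)⟫_ℂ := by
          intro Q
          have ha := S.mul_mem_fin_left (Q.pinch_mem (hx i)) hq
          have hb := S.mul_mem_fin_left (hT i) hq
          rw [← inner_sub_right, ← vc_sub ha hb, ← sub_mul, inner_vc_mul_left hq.1 (hV i)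
            (S.mul_mem_fin_left (sub_mem (Q.pinch_mem (hx i)) (hT i)) hq), hqp.isSelfAdjoint.star_eq,
            mul_assoc]
        have hl := ((hw i).tendsto_inner (hx i) (hT i) hqV hq).sub
          (tendsto_const_nhds (x := ⟪S.vc (q * V i), S.vc (T i * q)⟫_ℂ))
        rw [sub_self] at hl
        filter_upwards [Metric.tendsto_nhds.1 hl (1 / 2) one_half_pos] with Q hQ
        rw [e]
        rw [dist_zero_right] at hQ
        linarith [RCLike.re_le_norm
          (⟪S.vc (q * V i), S.vc (Q.pinch (x i) * q)⟫_ℂ - ⟪S.vc (q * V i), S.vc (T i * q)⟫_ℂ)]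
      obtain ⟨Q, hQ, hQ'⟩ := ((eventually_all.2 hev).and (S.eventually_refines P₀)).exists
      refine ⟨Fin.snoc P Q, fun j => ?_, fun i => ?_⟩
      · refine Fin.lastCases ?_ (fun j => ?_) j
        · simpa using hQ'
        · simpa using hP j
      · rw [Fin.sum_univ_castSucc]
        simp only [Fin.snoc_castSucc, Fin.snoc_last]
        rw [← vc_sum _ _ fun j _ => hf (P j) i, norm_add_sq (𝕜 := ℂ)]
        have h1 := hn i
        rw [← vc_sum _ _ fun j _ => hf (P j) i] at h1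
        push_cast
        linarith [hQ i, hB Q i]
  obtain ⟨m, hm⟩ := exists_nat_ge ((∑ i, (B i + 1)) / η ^ 2)
  obtain ⟨P, hP, hn⟩ := hseq (m + 1)
  refine ⟨m + 1, m.succ_pos, P, hP, fun i => ?_⟩
  refine (sq_le_sq₀ (norm_nonneg _) (by positivity)).1 ((hn i).trans ?_)
  have h1 : B i + 1 ≤ ∑ i, (B i + 1) :=
    Finset.single_le_sum (f := fun i => B i + 1) (fun i _ => by positivity) (Finset.mem_univ i)
  rw [div_le_iff₀ (pow_pos hη 2)] at hm
  rw [mul_pow, sq ((m + 1 : ℕ) : ℝ)]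
  push_cast
  nlinarith [pow_pos hη 2]

/-- Colours outside the finite part of `A`: a partition in `r` pieces averaging each family. -/
theorem exists_colouring {q : Op H} (hq : q ∈ S.fin) (hqp : IsStarProjection q)
    (hz : S.z0 * q = 0) {r : ℕ} [NeZero r] (y : ι → Fin r → Op H) (hy : ∀ i c, y i c ∈ S.M)
    (hys : ∀ i c, IsSelfAdjoint (y i c)) {T : ι → Op H} (hT : ∀ i, T i ∈ S.M)
    (hw : ∀ i, S.WLim (∑ c, y i c) (T i)) {η : ℝ} (hη : 0 < η) :
    ∃ p : Fin r → Op H, (∀ c, p c ∈ S.A ∧ IsStarProjection (p c)) ∧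
      (∀ c d, c ≠ d → p c * p d = 0) ∧ ∑ c, p c = 1 ∧
      ∀ i, ‖S.vc (q * (∑ c, p c * y i c * p c - ((1 / (r : ℝ) ^ 2) • ∑ c, y i c +
        (1 / (r : ℝ) - 1 / (r : ℝ) ^ 2) • T i)) * q)‖ ≤ η := by
  have hr : (1 : ℝ) ≤ r := by exact_mod_cast NeZero.one_le
  set ν := η / (2 * r) with hν
  have hν0 : 0 < ν := by positivity
  set C := ∑ i, ∑ c, 48 * ‖y i c‖ ^ 2 * (‖S.vc q‖ + 3) with hC
  have hC0 : 0 ≤ C := by positivity
  set κ := min 1 (ν ^ 2 / (C + 1))
  have hκ0 : 0 < κ := lt_min one_pos (by positivity)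
  obtain ⟨P₀, hκ⟩ := S.exists_pinch_small hq hqp hz hκ0
  obtain ⟨m, hm, P, hP, havg⟩ := exists_average hq hqp (fun i => sum_mem fun c _ => hy i c) hT hw
    (η := η / 2) (half_pos hη) P₀
  have : Nonempty (Fin m) := ⟨⟨0, hm⟩⟩
  set F : (Fin P₀.n → Sample P r) → ℝ :=
    fun ξ => ∑ i, ∑ c, ‖S.vc (errPart P₀ P q (y i c) ξ c)‖ ^ 2
  have hF : ∑ ξ, F ξ ≤ Fintype.card (Fin P₀.n → Sample P r) • ν ^ 2 := by
    simp only [F]
    rw [Finset.sum_comm, Finset.sum_congr rfl fun i _ => Finset.sum_comm, nsmul_eq_mul]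
    refine le_trans (Finset.sum_le_sum fun i _ => Finset.sum_le_sum fun c _ =>
      err_bound P₀ P hq hqp (hy i c) (hys i c) le_rfl hκ c) ?_
    simp only [← Finset.mul_sum]
    refine mul_le_mul_of_nonneg_left ?_ (Nat.cast_nonneg _)
    have h1 : κ ≤ 1 := min_le_left _ _
    have h2 : κ ≤ ν ^ 2 / (C + 1) := min_le_right _ _
    rw [le_div_iff₀ (by positivity)] at h2
    calc ∑ i, ∑ c, 48 * ‖y i c‖ ^ 2 * κ * (‖S.vc q‖ + 3 * κ)
        ≤ ∑ i, ∑ c, κ * (48 * ‖y i c‖ ^ 2 * (‖S.vc q‖ + 3)) := by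
          refine Finset.sum_le_sum fun i _ => Finset.sum_le_sum fun c _ => ?_
          rw [mul_comm κ, mul_right_comm]
          exact mul_le_mul_of_nonneg_right
            (mul_le_mul_of_nonneg_left (by linarith) (by positivity)) hκ0.le
      _ = κ * C := by rw [hC, Finset.mul_sum]; simp only [Finset.mul_sum]
      _ ≤ ν ^ 2 := by nlinarith
  obtain ⟨ξ, -, hξ⟩ := Finset.exists_le_of_sum_le (f := F) (g := fun _ => ν ^ 2) Finset.univ_nonempty
    (by simpa [Finset.sum_const] using hF)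
  refine ⟨pieces P₀ P ξ, fun c => ⟨pieces_mem P₀ P ξ c, pieces_proj P₀ P ξ c⟩,
    fun c d h => by rw [pieces_mul, if_neg h], sum_pieces P₀ P ξ, fun i => ?_⟩
  have hrs : ∀ (t : ℝ) {z : Op H}, z ∈ S.M → t • z ∈ S.M := fun t z hz => by
    rw [← Complex.coe_smul]
    exact S.M.toStarSubalgebra.smul_mem hz _
  have herr : ∀ c, errPart P₀ P q (y i c) ξ c ∈ S.fin := fun c => by
    have hX := S.le _ (pieces_mem P₀ P ξ c)
    refine sub_mem (sub_mem (S.mul_mem_fin_left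
      (mul_mem (mul_mem (mul_mem hq.1 hX) (hy i c)) hX) hq) ?_) (S.mul_mem_fin_left
        (mul_mem hq.1 (hrs _ (sum_mem fun j _ => P₀.pinch_mem ((P j).pinch_mem (hy i c))))) hq)
    rw [← Complex.coe_smul]
    exact S.fin.smul_mem _ (S.mul_mem_fin_left (mul_mem hq.1 (hy i c)) hq)
  have hdf : ∀ j, q * ((P j).pinch (∑ c, y i c) - T i) * q ∈ S.fin := fun j =>
    S.mul_mem_fin_left (mul_mem hq.1
      (sub_mem ((P j).pinch_mem (sum_mem fun c _ => hy i c)) (hT i))) hq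
  have hsum : ∑ c, errPart P₀ P q (y i c) ξ c +
      ((1 / (r : ℝ) - 1 / (r : ℝ) ^ 2) / m) • ∑ j, q * ((P j).pinch (∑ c, y i c) - T i) * q =
      q * (∑ c, pieces P₀ P ξ c * y i c * pieces P₀ P ξ c - ((1 / (r : ℝ) ^ 2) • ∑ c, y i c +
        (1 / (r : ℝ) - 1 / (r : ℝ) ^ 2) • T i)) * q := by
    have e : ∑ c, meanPart P₀ P r (y i c) =
        ((1 / (r : ℝ) - 1 / (r : ℝ) ^ 2) / m) • ∑ j, (P j).pinch (∑ c, y i c) := by
      simp only [meanPart, ← Finset.smul_sum, (hP _).pinch_coarse, Part.pinch_sum]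
      rw [Finset.sum_comm]
    simp only [errPart, Finset.sum_sub_distrib, ← Finset.smul_sum, ← Finset.sum_mul,
      ← Finset.mul_sum, e, mul_sub, sub_mul, Finset.sum_const, Finset.card_univ, Fintype.card_fin,
      mul_add, add_mul, mul_smul_comm, smul_mul_assoc]
    have hm' : (m : ℝ) ≠ 0 := by positivity
    rw [← Nat.cast_smul_eq_nsmul ℝ]
    simp only [Finset.mul_sum, Finset.sum_mul, mul_assoc]
    match_scalars <;> field_simp <;> ring
  rw [← hsum, ← Complex.coe_smul, vc_add (sum_mem fun c _ => herr c)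
      (S.fin.smul_mem _ (sum_mem fun j _ => hdf j)), vc_smul (sum_mem fun j _ => hdf j),
    vc_sum _ _ fun c _ => herr c, vc_sum _ _ fun j _ => hdf j]
  refine (norm_add_le _ _).trans ((add_le_add (?_ : _ ≤ η / 2) ?_).trans (add_halves η).le)
  · refine (norm_sum_le _ _).trans ((Finset.sum_le_card_nsmul _ _ ν fun c _ => ?_).trans ?_)
    · refine (sq_le_sq₀ (norm_nonneg _) hν0.le).1 (le_trans ?_ hξ)
      refine le_trans ?_ (Finset.single_le_sum (f := fun i => ∑ c, ‖S.vc (errPart P₀ P q (y i c) ξ c)‖ ^ 2)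
        (fun i _ => by positivity) (Finset.mem_univ i))
      exact Finset.single_le_sum (f := fun c => ‖S.vc (errPart P₀ P q (y i c) ξ c)‖ ^ 2)
        (fun c _ => by positivity) (Finset.mem_univ c)
    · rw [Finset.card_univ, Fintype.card_fin, nsmul_eq_mul, hν]
      field_simp
      rfl
  · rw [norm_smul, Complex.norm_real, Real.norm_eq_abs]
    have hw0 : 0 ≤ 1 / (r : ℝ) - 1 / (r : ℝ) ^ 2 := by
      rw [sub_nonneg]; gcongr; nlinarith
    have hw1 : 1 / (r : ℝ) - 1 / (r : ℝ) ^ 2 ≤ 1 := by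
      have : 1 / (r : ℝ) ≤ 1 := (div_le_one (by linarith)).2 hr
      linarith [show 0 ≤ 1 / (r : ℝ) ^ 2 by positivity]
    rw [abs_of_nonneg (by positivity)]
    refine (mul_le_mul (div_le_div_of_nonneg_right hw1 (Nat.cast_nonneg m)) (havg i)
      (norm_nonneg _) (by positivity)).trans (le_of_eq ?_)
    have hm' : (m : ℝ) ≠ 0 := by positivity
    field_simp

end Semi

end Vale.Agent.P078.Sf
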