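import Vale.Agent.P078.Sf.Corner
import Vale.Agent.P078.Sf.Select

/-!
# Pavings of the corner and projections outside the finite part
-/

open scoped ComplexOrder InnerProductSpace
open Vale.Agent.P078.Tr (cut)

noncomputable section

namespace Vale.Agent.P078.Sf

universe u

variable {H : Type u} [NormedAddCommGroup H] [InnerProductSpace ℂ H] [CompleteSpace H]

namespace Semi

variable (S : Semi H)

/-- The tracial theorem in a finite corner. -/
theorem exists_corner_paving {C : ℝ}
    (hC : ∀ (H : Type u) [NormedAddCommGroup H] [InnerProductSpace ℂ H] [CompleteSpace H]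
      (R : Tr.Tracial H) (x : Op H) (ε : ℝ), x ∈ R.M → IsSelfAdjoint x → 0 < ε → ε < 1 →
      ∀ r : ℕ, C / ε ^ 2 ≤ r → Tr.SoPavable R x ε r)
    {e : Op H} (he : e ∈ S.A) (hep : IsStarProjection e) (hef : e ∈ S.fin) {x : Op H} (hx : x ∈ S.M)
    (hxs : IsSelfAdjoint x) {ε : ℝ} (hε : 0 < ε) (hε1 : ε < 1) {r : ℕ} [NeZero r]
    (hr : C / ε ^ 2 ≤ r) (F : Finset H) {δ : ℝ} (hδ : 0 < δ) :
    ∃ (p : Fin r → Op H) (a q : Op H),
      (∀ c, p c ∈ S.A ∧ IsStarProjection (p c)) ∧ (∀ c d, c ≠ d → p c * p d = 0) ∧ ∑ c, p c = e ∧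
      a ∈ S.A ∧ IsSelfAdjoint a ∧ ‖a‖ ≤ ‖x‖ ∧ e * a = a ∧ q ∈ S.M ∧ IsStarProjection q ∧
      e * q = q ∧ q * e = q ∧ (∀ v ∈ F, ‖(e - q) v‖ < δ) ∧
      ‖q * (∑ c, p c * x * p c - a) * q‖ ≤ ε * ‖x‖ := by
  classical
  by_cases h0 : e = 0
  · subst h0
    refine ⟨fun _ => 0, 0, 0, fun _ => ⟨zero_mem _, IsStarProjection.zero _⟩, by simp, by simp,
      zero_mem _, IsSelfAdjoint.zero _, by simp, by simp, zero_mem _, IsStarProjection.zero _,
      by simp, by simp, fun v _ => by simpa using hδ, ?_⟩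
    simp only [zero_mul, norm_zero]
    positivity
  obtain ⟨K, _, rfl⟩ := isStarProjection_iff_eq_starProjection.1 hep
  have : CompleteSpace K := by
    refine IsClosed.completeSpace_coe (hs := ?_)
    exact isClosed_of_closure_subset fun v hv =>
      Submodule.starProjection_eq_self_iff.1 (by
        have hc : IsClosed {w : H | K.starProjection w = w} :=
          isClosed_eq K.starProjection.continuous continuous_id
        exact hc.closure_subset_iff.2 (fun w hw => Submodule.starProjection_eq_self_iff.2 hw) hv)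
  obtain ⟨R, hRM, hRA⟩ := S.exists_corner K he hef h0
  have hxK : compress K x ∈ R.M := hRM ▸ S.compress_mem (S.le _ he) hx
  have hxKs : IsSelfAdjoint (compress K x) := by rw [IsSelfAdjoint, ← compress_star, hxs.star_eq]
  obtain ⟨p, a, q, hp, ho, hsum, haA, has, han, hqM, hqp, hq, hb⟩ :=
    hC K R (compress K x) ε hxK hxKs hε hε1 r hr (F.image K.orthogonalProjectionOnto) δ hδ
  simp only [hRA, mem_cornerA] at hp haA
  rw [hRM] at hqM
  have he1 : ∀ T : Op K, K.starProjection * lift K T = lift K T := fun T => by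
    rw [← lift_one, ← lift_mul, one_mul]
  have he2 : ∀ T : Op K, lift K T * K.starProjection = lift K T := fun T => by
    rw [← lift_one, ← lift_mul, mul_one]
  refine ⟨fun c => lift K (p c), lift K a, lift K q,
    fun c => ⟨(hp c).1, isStarProjection_lift K (hp c).2⟩,
    fun c d h => by rw [← lift_mul, ho c d h, lift_zero],
    by rw [← lift_sum, hsum, lift_one], haA,
    by rw [IsSelfAdjoint, ← lift_star, has.star_eq],
    (norm_lift_le K a).trans (han.trans (norm_compress_le K x)), he1 a,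
    S.lift_mem_M (S.le _ he) hqM, isStarProjection_lift K hqp, he1 q, he2 q, fun v hv => ?_, ?_⟩
  · rw [← lift_one, ← lift_sub, lift_apply]
    exact hq _ (Finset.mem_image_of_mem _ hv)
  · have e : ∀ c, lift K (p c * compress K x * p c) = lift K (p c) * x * lift K (p c) := fun c => by
      rw [lift_mul, lift_mul, lift_compress]
      simp only [← mul_assoc, he2]
      rw [mul_assoc (lift K (p c) * x), he1]
    rw [← Finset.sum_congr rfl fun c _ => e c, ← lift_sum, ← lift_sub, ← lift_mul, ← lift_mul]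
    exact (norm_lift_le K _).trans
      (hb.trans (mul_le_mul_of_nonneg_left (norm_compress_le K x) hε.le))

/-- A projection of finite trace fills the complement of the finite part near given vectors. -/
theorem exists_outside (F : Finset H) {δ : ℝ} (hδ : 0 < δ) :
    ∃ q ∈ S.fin, IsStarProjection q ∧ S.z0 * q = 0 ∧ ∀ v ∈ F, ‖(1 - S.z0 - q) v‖ < δ := by
  classical
  set z := 1 - S.z0
  have hz : IsStarProjection z := S.isStarProjection_z0.one_sub
  have hzM : z ∈ S.M := sub_mem (one_mem _) S.z0_mem_M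
  obtain ⟨q, hqM, hqp, hqs, hq⟩ := S.semifinite (F.image z) (δ / 2) (half_pos hδ)
  set d := q * z
  have hd : d ∈ S.fin := S.mul_mem_fin_right (S.mem_fin.2 ⟨hqM, hqs⟩) hzM
  set h := star d * d with hh
  have hM : h ∈ S.M := mul_mem (star_mem hd.1) hd.1
  have h0 : 0 ≤ h := star_mul_self_nonneg d
  set q₁ := cut h (1 / 2)
  have hq1 : IsStarProjection q₁ := Tr.isStarProjection_cut h _
  have hcf : q₁ ∈ S.fin := (S.cut_mem_fin hM h0 (hasSum_norm_sq hd)
    (fun i => le_of_eq (re_inner_star_mul d _)) one_half_pos).1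
  have hdz : d * S.z0 = 0 := by
    rw [mul_assoc, sub_mul, one_mul, S.isStarProjection_z0.isIdempotentElem.eq, sub_self, mul_zero]
  have hqz : q₁ * S.z0 = 0 := by
    have h1 := star_left_conjugate_le_conjugate (cut_le h0 (t := (1 / 2 : ℝ)) (by norm_num)) S.z0
    rw [mul_assoc, mul_assoc, show h * S.z0 = 0 by rw [hh, mul_assoc, hdz, mul_zero], mul_zero,
      smul_mul_assoc, mul_smul_comm] at h1
    have h2 : star (q₁ * S.z0) * (q₁ * S.z0) = 0 := by
      refine le_antisymm ?_ (star_mul_self_nonneg _)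
      have h3 := smul_le_smul_of_nonneg_left h1 (zero_le_two (α := ℝ))
      rw [smul_smul, smul_zero] at h3
      norm_num at h3
      rw [star_mul, hq1.isSelfAdjoint.star_eq, mul_assoc, ← mul_assoc q₁ q₁,
        hq1.isIdempotentElem.eq]
      exact h3
    exact CStarRing.star_mul_self_eq_zero_iff _ |>.1 h2
  have hzq : S.z0 * q₁ = 0 := by
    have := congrArg star hqz
    rwa [star_mul, star_zero, hq1.isSelfAdjoint.star_eq,
      S.isStarProjection_z0.isSelfAdjoint.star_eq] at this
  refine ⟨q₁, hcf, hq1, hzq, fun v hv => ?_⟩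
  set w := z v
  have hzw : z w = w := by rw [← mul_apply_eq_comp, hz.isIdempotentElem.eq]
  set u := (1 - q₁) w
  have e : (1 - S.z0 - q₁) v = u := by
    have : 1 - S.z0 - q₁ = (1 - q₁) * z := by
      simp only [z, sub_mul, mul_sub, one_mul, mul_one, hqz]
      abel
    rw [this]
    rfl
  rw [e]
  have h1 : RCLike.re ⟪u, h u⟫_ℂ ≤ 1 / 2 * ‖u‖ ^ 2 := by
    have h2 := Tr.le_of_cut h0.isSelfAdjoint (1 / 2 : ℝ)
    change (1 - q₁) * (h - (1 / 2 : ℝ) • (1 : Op H)) * (1 - q₁) ≤ 0 at h2
    rw [mul_sub (1 - q₁), sub_mul ((1 - q₁) * h), mul_smul_comm, mul_one, smul_mul_assoc,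
      hq1.one_sub.isIdempotentElem.eq, sub_nonpos] at h2
    have h3 := re_inner_mono h2 w
    rw [smul_apply, inner_smul_right_eq_smul, RCLike.smul_re, ← norm_sq_proj hq1.one_sub] at h3
    rwa [mul_apply_eq_comp, mul_apply_eq_comp, ← ContinuousLinearMap.adjoint_inner_left,
      ← ContinuousLinearMap.star_eq_adjoint, hq1.one_sub.isSelfAdjoint.star_eq] at h3
  have hcomm : Commute (1 - h) (1 - q₁) :=
    (Commute.one_right (1 - h)).sub_right
      ((Commute.one_left q₁).sub_left (Tr.commute_cut _ (Commute.refl h)))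
  have h4 : RCLike.re ⟪u, (1 - h) u⟫_ℂ ≤ ‖u‖ * ‖(1 - h) w‖ := by
    refine (RCLike.re_le_norm _).trans ((norm_inner_le_norm _ _).trans
      (mul_le_mul_of_nonneg_left ?_ (norm_nonneg _)))
    rw [show (1 - h) u = (1 - q₁) ((1 - h) w) from DFunLike.congr_fun hcomm.eq w]
    exact ((1 - q₁).le_opNorm _).trans
      (mul_le_of_le_one_left (norm_nonneg _) hq1.one_sub.norm_le)
  rw [sub_apply, one_apply_eq_self, inner_sub_right, map_sub, inner_self_eq_norm_sq] at h4
  have h5 : ‖(1 - h) w‖ < δ / 2 := by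
    have e1 : (1 - h) w = z ((1 - q) w) := by
      have : h = z * q * z := by
        rw [hh, star_mul, hqp.isSelfAdjoint.star_eq, hz.isSelfAdjoint.star_eq, mul_assoc, mul_assoc]
        simp only [d, ← mul_assoc]
        rw [mul_assoc z q q, hqp.isIdempotentElem.eq]
      rw [show z ((1 - q) w) = z w - z (q w) from map_sub z w (q w), this, sub_apply,
        one_apply_eq_self, mul_apply_eq_comp, mul_apply_eq_comp, hzw]
    rw [e1]
    exact ((z.le_opNorm _).trans (mul_le_of_le_one_left (norm_nonneg _) hz.norm_le)).trans_lt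
      (hq _ (Finset.mem_image_of_mem _ hv))
  nlinarith [norm_nonneg u, norm_nonneg ((1 - h) w)]

end Semi

end Vale.Agent.P078.Sf
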