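import Vale.Agent.P078.Sf.Part

/-!
# The finite part of `A`
-/

open scoped ComplexOrder InnerProductSpace
open Vale.Agent.P078.Tr (cut hinge)

noncomputable section

namespace Vale.Agent.P078.Sf

universe u

variable {H : Type u} [NormedAddCommGroup H] [InnerProductSpace ℂ H] [CompleteSpace H]

lemma cut_le {h : Op H} (h0 : 0 ≤ h) {t : ℝ} (ht : 0 ≤ t) : t • cut h t ≤ h := by
  have e := Tr.cut_le_hinge h0.isSelfAdjoint (le_refl (0 : ℝ) |>.trans ht) (t := t)
  rw [sub_zero] at e
  refine e.trans (le_of_eq ?_)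
  rw [hinge, cfc_congr (g := fun z : ℝ => z) fun z hz => ?_, cfc_id' ℝ h]
  have : 0 ≤ z := spectrum_nonneg_of_nonneg h0 hz
  simp [this]

lemma norm_sq_proj {e : Op H} (he : IsStarProjection e) (v : H) :
    ‖e v‖ ^ 2 = RCLike.re ⟪v, e v⟫_ℂ := by
  rw [← inner_self_eq_norm_sq (𝕜 := ℂ), ← ContinuousLinearMap.adjoint_inner_right,
    ← ContinuousLinearMap.star_eq_adjoint, he.isSelfAdjoint.star_eq, ← mul_apply_eq_comp,
    he.isIdempotentElem.eq]

lemma re_inner_mono {a b : Op H} (h : a ≤ b) (v : H) :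
    RCLike.re ⟪v, a v⟫_ℂ ≤ RCLike.re ⟪v, b v⟫_ℂ := by
  have := ((ContinuousLinearMap.nonneg_iff_isPositive _).1 (sub_nonneg.2 h)).inner_nonneg_right v
  rw [sub_apply, inner_sub_right, Complex.nonneg_iff, Complex.sub_re] at this
  simpa using this.1

lemma re_inner_star_mul (T : Op H) (v : H) :
    RCLike.re ⟪v, (star T * T) v⟫_ℂ = ‖T v‖ ^ 2 := by
  rw [mul_apply_eq_comp, ContinuousLinearMap.star_eq_adjoint,
    ContinuousLinearMap.adjoint_inner_right, inner_self_eq_norm_sq]

/-- Below a cut of `h ≥ T* T`, the operator `T` is small. -/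
lemma norm_mul_cut_compl {h T : Op H} (h0 : 0 ≤ h) (hT : star T * T ≤ h) {t : ℝ} (ht : 0 ≤ t) :
    ‖T * (1 - cut h t)‖ ^ 2 ≤ t := by
  set c := 1 - cut h t
  have hc : IsStarProjection c := (Tr.isStarProjection_cut h t).one_sub
  have h1 : c * h * c ≤ t • c := by
    have := Tr.le_of_cut h0.isSelfAdjoint t
    change c * (h - t • (1 : Op H)) * c ≤ 0 at this
    rwa [mul_sub c, sub_mul (c * h), mul_smul_comm, mul_one, smul_mul_assoc,
      hc.isIdempotentElem.eq, sub_nonpos] at this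
  have h2 : star (T * c) * (T * c) ≤ algebraMap ℝ (Op H) t := by
    rw [star_mul, hc.isSelfAdjoint.star_eq, Algebra.algebraMap_eq_smul_one,
      show c * star T * (T * c) = c * (star T * T) * c by simp only [mul_assoc]]
    refine (?_ : _ ≤ c * h * c).trans (h1.trans (smul_le_smul_of_nonneg_left hc.le_one ht))
    simpa [hc.isSelfAdjoint.star_eq] using star_left_conjugate_le_conjugate hT c
  rw [sq, ← CStarRing.norm_star_mul_self]
  exact (CStarAlgebra.norm_le_iff_le_algebraMap _ ht (star_mul_self_nonneg _)).2 h2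

namespace Semi

variable (S : Semi H)

/-- A cut of an element with finite trace has finite trace. -/
lemma cut_mem_fin {h : Op H} (hM : h ∈ S.M) (h0 : 0 ≤ h) {g : S.I → ℝ} {G : ℝ} (hg : HasSum g G)
    (hle : ∀ i, RCLike.re ⟪S.vec i, h (S.vec i)⟫_ℂ ≤ g i) {t : ℝ} (ht : 0 < t) :
    cut h t ∈ S.fin ∧ ‖S.vc (cut h t)‖ ^ 2 ≤ G / t := by
  have hb : ∀ i, ‖cut h t (S.vec i)‖ ^ 2 ≤ g i / t := fun i => by
    rw [le_div_iff₀ ht, mul_comm, norm_sq_proj (Tr.isStarProjection_cut h t)]
    refine le_trans ?_ (hle i)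
    refine le_trans (le_of_eq ?_) (re_inner_mono (cut_le h0 ht.le) (S.vec i))
    rw [smul_apply, inner_smul_right_eq_smul, RCLike.smul_re]
  have hfin : cut h t ∈ S.fin :=
    S.mem_fin.2 ⟨S.cut_mem_M hM t, (hg.summable.div_const t).of_nonneg_of_le (fun i => sq_nonneg _) hb⟩
  exact ⟨hfin, hasSum_le hb (hasSum_norm_sq hfin) (hg.div_const t)⟩

/-- Projections of `A` with finite trace. -/
def FinProj : Type u := {e : Op H // e ∈ S.A ∧ IsStarProjection e ∧ e ∈ S.fin}

instance : Nonempty S.FinProj := ⟨⟨0, zero_mem _, IsStarProjection.zero _, zero_mem _⟩⟩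

/-- The space of the finite part of `A`. -/
def K0 : Submodule ℂ H := (⨆ e : S.FinProj, e.1.range).topologicalClosure

instance : CompleteSpace S.K0 :=
  (Submodule.isClosed_topologicalClosure _).completeSpace_coe

/-- The finite part of `A`. -/
def z0 : Op H := S.K0.starProjection

lemma isStarProjection_z0 : IsStarProjection S.z0 := isStarProjection_starProjection

lemma z0_apply_mem (e : S.FinProj) (v : H) : S.z0 (e.1 v) = e.1 v :=
  Submodule.starProjection_eq_self_iff.2 (Submodule.le_topologicalClosure _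
    (Submodule.mem_iSup_of_mem e (LinearMap.mem_range_self (e.1 : H →ₗ[ℂ] H) v)))

lemma z0_mul_proj (e : S.FinProj) : S.z0 * e.1 = e.1 :=
  ContinuousLinearMap.ext (S.z0_apply_mem e)

lemma directed_finProj : Directed (· ≤ ·) fun e : S.FinProj => e.1.range := by
  intro e f
  obtain ⟨e, he, hep, hef⟩ := e
  obtain ⟨f, hf, hfp, hff⟩ := f
  have hc : Commute e f := S.comm e he f hf
  have hsum : IsStarProjection (e + (1 - e) * f) := by
    refine hep.add (hep.one_sub.mul hfp ((Commute.one_left f).sub_left hc)) ?_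
    rw [← mul_assoc, mul_sub, mul_one, hep.isIdempotentElem.eq, sub_self, zero_mul]
  have h1 : (e + (1 - e) * f) * e = e := by
    rw [add_mul, mul_assoc, ← hc.eq, hep.isIdempotentElem.eq, sub_mul, one_mul, ← mul_assoc,
      hep.isIdempotentElem.eq, sub_self, add_zero]
  have h2 : (e + (1 - e) * f) * f = f := by
    rw [add_mul, mul_assoc, hfp.isIdempotentElem.eq, sub_mul, one_mul, add_sub_cancel]
  refine ⟨⟨_, add_mem he (mul_mem (sub_mem (one_mem _) he) hf), hsum,
    add_mem hef (S.mul_mem_fin_left (sub_mem (one_mem _) (S.le e he)) hff)⟩, ?_, ?_⟩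
  · rintro _ ⟨v, rfl⟩
    exact ⟨e v, DFunLike.congr_fun h1 v⟩
  · rintro _ ⟨v, rfl⟩
    exact ⟨f v, DFunLike.congr_fun h2 v⟩

lemma commute_z0 {b : Op H} (hb : ∀ e : S.FinProj, Commute b e.1) : Commute b S.z0 := by
  have hinv : ∀ c : Op H, (∀ e : S.FinProj, Commute c e.1) → S.z0 * c * S.z0 = c * S.z0 := by
    intro c hc
    refine ContinuousLinearMap.ext fun v => Submodule.starProjection_eq_self_iff.2 ?_
    have h : (⨆ e : S.FinProj, e.1.range) ≤ S.K0.comap (c : H →ₗ[ℂ] H) := by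
      refine iSup_le fun e => ?_
      rintro _ ⟨w, rfl⟩
      refine Submodule.le_topologicalClosure _ (Submodule.mem_iSup_of_mem e ?_)
      exact ⟨c w, (DFunLike.congr_fun (hc e).eq w).symm⟩
    exact Submodule.topologicalClosure_minimal _ h
      (IsClosed.preimage c.continuous (Submodule.isClosed_topologicalClosure _))
      (Submodule.starProjection_apply_mem _ v)
  have hs : ∀ e : S.FinProj, Commute (star b) e.1 := fun e => by
    have := (hb e).star_star
    rwa [e.2.2.1.isSelfAdjoint.star_eq] at this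
  have h := congrArg star (hinv _ hs)
  rw [star_mul, star_mul, star_mul, star_star, S.isStarProjection_z0.isSelfAdjoint.star_eq,
    ← mul_assoc] at h
  exact (hinv b hb).symm.trans h

lemma z0_mem_M : S.z0 ∈ S.M :=
  S.mem_M_iff.2 fun _ hy =>
    (S.commute_z0 fun e => S.commute_of_mem (S.le _ e.2.1) hy).eq

lemma z0_mem_A : S.z0 ∈ S.A :=
  S.masa _ S.z0_mem_M fun a ha => (S.commute_z0 fun e => S.comm a ha _ e.2.1).symm.eq

/-- The finite part carries every element of `A` of finite 2-norm. -/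
lemma z0_mul_of_fin {T : Op H} (hT : T ∈ S.A) (hf : T ∈ S.fin) : S.z0 * T = T := by
  have hs : star T ∈ S.fin := S.star_mem_fin hf
  set h := T * star T
  have hA : h ∈ S.A := mul_mem hT (star_mem hT)
  have h0 : 0 ≤ h := mul_star_self_nonneg T
  have key : ∀ t > (0 : ℝ), ‖(1 - S.z0) * T‖ ^ 2 ≤ t := fun t ht => by
    have hcf := (S.cut_mem_fin (S.le h hA) h0 (hasSum_norm_sq hs)
      (fun i => le_of_eq (by rw [← re_inner_star_mul, star_star])) ht).1
    have hz := S.z0_mul_proj ⟨_, S.cut_mem_A hA t, Tr.isStarProjection_cut h t, hcf⟩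
    refine le_trans ?_ (norm_mul_cut_compl h0 (le_of_eq (by rw [star_star]) :
      star (star T) * star T ≤ h) ht.le)
    refine pow_le_pow_left₀ (norm_nonneg _) ?_ 2
    have e : (1 - S.z0) * T = (1 - S.z0) * ((1 - cut h t) * T) := by
      rw [← mul_assoc, mul_sub (1 - S.z0) 1, mul_one, sub_mul _ S.z0 (cut h t), one_mul, hz, sub_self,
        sub_zero]
    rw [e]
    refine (norm_mul_le _ _).trans
      ((mul_le_of_le_one_left (norm_nonneg _) S.isStarProjection_z0.one_sub.norm_le).trans ?_)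
    rw [← norm_star, star_mul, (Tr.isStarProjection_cut h t).one_sub.isSelfAdjoint.star_eq]
  have h1 : ‖(1 - S.z0) * T‖ ^ 2 ≤ 0 := le_of_forall_gt_imp_ge_of_dense key
  have h2 : (1 - S.z0) * T = 0 := norm_eq_zero.1 (by nlinarith [norm_nonneg ((1 - S.z0) * T)])
  rwa [sub_mul, one_mul, sub_eq_zero, eq_comm] at h2

/-- A projection of finite trace in `A` fills the finite part near finitely many vectors. -/
lemma exists_finProj (F : Finset H) {δ : ℝ} (hδ : 0 < δ) :
    ∃ e ∈ S.A, IsStarProjection e ∧ e ∈ S.fin ∧ S.z0 * e = e ∧ ∀ v ∈ F, ‖(S.z0 - e) v‖ < δ := by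
  classical
  have hone : ∀ v : H, ∃ e : S.FinProj, ‖(S.z0 - e.1) v‖ < δ := fun v => by
    have hv : S.z0 v ∈ closure ((⨆ e : S.FinProj, e.1.range : Submodule ℂ H) : Set H) := by
      rw [← Submodule.topologicalClosure_coe]
      exact Submodule.starProjection_apply_mem _ v
    obtain ⟨w, hw, hvw⟩ := Metric.mem_closure_iff.1 hv δ hδ
    obtain ⟨e, w', rfl⟩ := (Submodule.mem_iSup_of_directed _ S.directed_finProj).1 hw
    refine ⟨e, lt_of_le_of_lt ?_ hvw⟩
    have hx : (S.z0 - e.1) v = (1 - e.1) (S.z0 v - e.1 w') := by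
      rw [show (1 - e.1) (S.z0 v - e.1 w') =
        ((1 - e.1) * S.z0) v - ((1 - e.1) * e.1) w' from map_sub _ _ _, sub_mul, sub_mul, one_mul,
        one_mul, e.2.2.1.isIdempotentElem.eq, sub_self, zero_apply, sub_zero,
        S.comm _ e.2.1 _ S.z0_mem_A, S.z0_mul_proj]
    rw [hx, dist_eq_norm]
    exact ((1 - e.1).le_opNorm _).trans
      (mul_le_of_le_one_left (norm_nonneg _) e.2.2.1.one_sub.norm_le)
  choose e he using hone
  obtain ⟨f, hf⟩ := S.directed_finProj.finset_le (F.image e)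
  refine ⟨f.1, f.2.1, f.2.2.1, f.2.2.2, S.z0_mul_proj f, fun v hv => lt_of_le_of_lt ?_ (he v)⟩
  have hef : f.1 * (e v).1 = (e v).1 := ContinuousLinearMap.ext fun w => by
    obtain ⟨w', hw'⟩ := hf (e v) (Finset.mem_image_of_mem e hv) (LinearMap.mem_range_self _ w)
    show f.1 ((e v).1 w) = (e v).1 w
    simp only [ContinuousLinearMap.coe_coe] at hw'
    rw [← hw', ← mul_apply_eq_comp, f.2.2.1.isIdempotentElem.eq]
  have h1 : S.z0 - f.1 = (1 - f.1) * (S.z0 - (e v).1) := by
    rw [sub_mul, one_mul, mul_sub, hef, S.comm _ f.2.1 _ S.z0_mem_A, S.z0_mul_proj]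
    abel
  rw [h1, mul_apply_eq_comp]
  exact ((1 - f.1).le_opNorm _).trans
    (mul_le_of_le_one_left (norm_nonneg _) f.2.2.1.one_sub.norm_le)

end Semi

end Vale.Agent.P078.Sf
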